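import Vale.Agent.P268.T.Delta

/-!
# P268, topological half, block B4b: the half space form `K_A` (start of the swing)

`KA e ε R M b ν`: the same plates as the normal form `NN e ε R M b ν` of `T/Delta.lean`, but the
slab is present over the whole half space `u₀ < ‖p‖` (domain function `M (‖p‖ - u₀)`).
`farB b₀ b`, `farN e ν`: the data with one more sheet `none`, constant and far away.
-/

set_option linter.unusedSectionVars false

namespace Vale.Agent.P268.T

open Set Filter Topology Metric

variable {T P V A : Type*} [TopologicalSpace T] [NormedAddCommGroup P] [NormedSpace ℝ P]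
  [NormedAddCommGroup V] [InnerProductSpace ℝ V]

/-- The plates of the half space form. -/
noncomputable def kplates (e : V) (ε R M : T → ℝ) (b ν : T → A → P → V) :
    SheetData T ((ℝ × P) × V) V (Option A) where
  w τ a x := a.elim x.2 fun a => x.2 - ‖x.1‖ • b τ a (kap x.1)
  ν τ a x := a.elim e fun a => ν τ a (kap x.1)
  r τ a x := a.elim (R τ * ‖x.1‖) fun _ => ε τ * ‖x.1‖
  σ τ a x := a.elim (M τ * (‖x.1.2‖ - x.1.1)) fun _ => M τ * (x.1.1 - ‖x.1.2‖ / 2)

/-- **The half space form `K_A`**. -/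
noncomputable def KA [Fintype A] (e : V) (ε R M : ℝ) (b ν : A → P → V) : (ℝ × P) × V → ℂ :=
  (kplates e (fun _ : Unit => ε) (fun _ => R) (fun _ => M) (fun _ => b) (fun _ => ν)).fn ε
    (fun x => ‖x.1‖) ()

/-- One more sheet `none`, constant `= b₀`. -/
def farB (b₀ : V) (b : A → P → V) : Option A → P → V := fun k => k.elim (fun _ => b₀) b

/-- Normals, with `e` for the sheet `none`. -/
def farN (e : V) (ν : A → P → V) : Option A → P → V := fun k => k.elim (fun _ => e) ν

/-- Open cone around the sheets. -/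
def swU (r : ℝ) : Set ((ℝ × P) × V) := {x | ‖x.1.2‖ < r * x.1.1 ∧ ‖x.2‖ < r * x.1.1}

/-- Closed cone around the sheets. -/
def swC (r : ℝ) : Set ((ℝ × P) × V) := {x | ‖x.1.2‖ ≤ r * x.1.1 ∧ ‖x.2‖ ≤ r * x.1.1}

/-- The slab over `u₀ < ‖p‖`. -/
noncomputable def slab₁ (M R : ℝ) (x : (ℝ × P) × V) : ℝ :=
  min (M * (‖x.1.2‖ - x.1.1)) (R * ‖x.1.2‖ - ‖x.2‖)

end Vale.Agent.P268.T
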