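import Vale.Agent.P268.T.H863.Sharp

/-!
# P268, topological half, block B4b: the real family of the swing
-/

set_option linter.unusedSectionVars false

namespace Vale.Agent.P268.T

open Set Filter Topology

/-! ### Norm growth -/

theorem norm_growth {P : Type*} [NormedAddCommGroup P] [NormedSpace ℝ P] {p₀ : P} (hp₀ : p₀ ≠ 0)
    {lam : ℝ} (hlam : 0 < lam) {p : P} (hp : ‖p - p₀‖ ≤ ‖p₀‖ / 4) {t : ℝ} (ht : 0 ≤ t) :
    lam / 2 * t ≤ ‖p + t • ((lam / ‖p₀‖) • p₀)‖ - ‖p‖ := by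
  have hn : 0 < ‖p₀‖ := norm_pos_iff.mpr hp₀
  set m : ℝ := ‖p₀‖ / lam with hm
  have hm0 : 0 < m := by positivity
  set v : P := (lam / ‖p₀‖) • p₀ with hv
  have hmv : m • v = p₀ := by
    rw [hv, smul_smul, hm]
    have : ‖p₀‖ / lam * (lam / ‖p₀‖) = 1 := by field_simp
    rw [this, one_smul]
  have e1 : (t + m) • p = t • (p - p₀) + m • (p + t • v) := by
    rw [smul_add m, smul_smul, mul_comm m t, ← smul_smul, hmv, add_smul, smul_sub]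
    abel
  have e2 : (t + m) * ‖p‖ ≤ t * ‖p - p₀‖ + m * ‖p + t • v‖ := by
    have h1 : ‖(t + m) • p‖ = (t + m) * ‖p‖ := by
      rw [norm_smul, Real.norm_eq_abs, abs_of_nonneg (by positivity)]
    rw [← h1, e1]
    refine (norm_add_le _ _).trans ?_
    rw [norm_smul, norm_smul, Real.norm_eq_abs, Real.norm_eq_abs, abs_of_nonneg ht,
      abs_of_pos hm0]
  have e3 : ‖p₀‖ * (3 / 4) ≤ ‖p‖ := by
    have : ‖p₀‖ ≤ ‖p‖ + ‖p - p₀‖ := by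
      have h1 : p₀ = p - (p - p₀) := by abel
      calc ‖p₀‖ = ‖p - (p - p₀)‖ := by rw [← h1]
        _ ≤ _ := norm_sub_le _ _
    linarith
  have e4 : t * (‖p₀‖ / 2) ≤ m * (‖p + t • v‖ - ‖p‖) := by nlinarith
  have e5 : m * (lam / 2 * t) = t * (‖p₀‖ / 2) := by rw [hm]; field_simp
  rw [← e5] at e4
  exact le_of_mul_le_mul_left e4 hm0

/-! ### Directional Lipschitz estimates -/

section dir

variable {E : Type*} [NormedAddCommGroup E] [NormedSpace ℝ E]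
  {T : Type*} [TopologicalSpace T] {s : Set T} {t₀ : T} {x₀ : E}

theorem DirLip.of_global {f : T → E → ℝ} {a : E} {L : ℝ}
    (h : ∀ᶠ t in 𝓝[s] t₀, ∀ x, ∀ τ : ℝ, |f t (x + τ • a) - f t x| ≤ L * |τ|) :
    DirLip s f t₀ x₀ a :=
  ⟨L, univ, univ_mem, h.mono fun t ht x _ τ _ => ht x τ⟩

end dir

/-! ### The family -/

section fam

variable {P V : Type*} [NormedAddCommGroup P] [NormedSpace ℝ P]
  [NormedAddCommGroup V] [NormedSpace ℝ V]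

/-- The slab of the swing: cut down by `M (‖p‖ + σ u₀)`. -/
noncomputable def slabσ (M R σ : ℝ) (x : (ℝ × P) × V) : ℝ :=
  min (min (M * (‖x.1.2‖ - x.1.1)) (R * ‖x.1.2‖ - ‖x.2‖)) (M * (‖x.1.2‖ + σ * x.1.1))

/-- The ray as a function on the whole space. -/
noncomputable def rayF (ρ : ℝ) (f : ℝ × V) (ℓ : ℝ × V →L[ℝ] ℝ) (x : (ℝ × P) × V) : ℝ :=
  ρ * ℓ (x.1.1, x.2) - ‖(x.1.1, x.2) - ℓ (x.1.1, x.2) • f‖

/-- The real part of the swing. -/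
noncomputable def swA (κ M R σ ρ : ℝ) (f : ℝ × V) (ℓ : ℝ × V →L[ℝ] ℝ) (x : (ℝ × P) × V) : ℝ :=
  max (-κ * ‖x‖) (max (slabσ M R σ x) (rayF ρ f ℓ x))

theorem swA_smul {κ M R σ ρ : ℝ} {f : ℝ × V} {ℓ : ℝ × V →L[ℝ] ℝ} {k : ℝ} (hk : 0 ≤ k)
    (x : (ℝ × P) × V) : swA κ M R σ ρ f ℓ (k • x) = k * swA κ M R σ ρ f ℓ x := by
  have e0 : ((k • x).1.1, (k • x).2) = k • ((x.1.1, x.2) : ℝ × V) := rfl
  have e1 : ℓ ((k • x).1.1, (k • x).2) = k * ℓ (x.1.1, x.2) := by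
    rw [e0, map_smul, smul_eq_mul]
  have e2 : ‖(((k • x).1.1, (k • x).2) : ℝ × V) - ℓ ((k • x).1.1, (k • x).2) • f‖ =
      k * ‖((x.1.1, x.2) : ℝ × V) - ℓ (x.1.1, x.2) • f‖ := by
    rw [e1, e0, ← smul_smul, ← smul_sub, norm_smul, Real.norm_eq_abs, abs_of_nonneg hk]
  have e3 : ‖k • x‖ = k * ‖x‖ := by rw [norm_smul, Real.norm_eq_abs, abs_of_nonneg hk]
  have e4 : ‖(k • x).1.2‖ = k * ‖x.1.2‖ := by
    show ‖k • x.1.2‖ = _
    rw [norm_smul, Real.norm_eq_abs, abs_of_nonneg hk]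
  have e5 : ‖(k • x).2‖ = k * ‖x.2‖ := by
    show ‖k • x.2‖ = _
    rw [norm_smul, Real.norm_eq_abs, abs_of_nonneg hk]
  have e6 : (k • x).1.1 = k * x.1.1 := rfl
  unfold swA slabσ rayF
  rw [e2, e1, e3, e4, e5, e6, mul_max_of_nonneg _ _ hk, mul_max_of_nonneg _ _ hk,
    mul_min_of_nonneg _ _ hk, mul_min_of_nonneg _ _ hk]
  congr 1
  · ring
  · congr 1
    · congr 1
      · congr 1 <;> ring
      · ring
    · ring

variable {T : Type*} [TopologicalSpace T] {s : Set T} {σ ρ : T → ℝ} {f : T → ℝ × V}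
  {ℓ : T → (ℝ × V →L[ℝ] ℝ)} {κ M R : ℝ}

theorem continuousOn_slabσ (hσ : ContinuousOn σ s) :
    ContinuousOn (fun q : T × ((ℝ × P) × V) => slabσ M R (σ q.1) q.2) (s ×ˢ univ) := by
  have h1 : ContinuousOn (fun q : T × ((ℝ × P) × V) => σ q.1) (s ×ˢ univ) :=
    hσ.comp continuousOn_fst fun q hq => hq.1
  have h2 : Continuous (fun q : T × ((ℝ × P) × V) => ‖q.2.1.2‖) := by fun_prop
  have h3 : Continuous (fun q : T × ((ℝ × P) × V) => q.2.1.1) := by fun_prop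
  have h4 : Continuous (fun q : T × ((ℝ × P) × V) => ‖q.2.2‖) := by fun_prop
  have h5 : ContinuousOn (fun q : T × ((ℝ × P) × V) => M * (‖q.2.1.2‖ + σ q.1 * q.2.1.1))
      (s ×ˢ univ) := continuousOn_const.mul (h2.continuousOn.add (h1.mul h3.continuousOn))
  have h6 : Continuous (fun q : T × ((ℝ × P) × V) =>
      min (M * (‖q.2.1.2‖ - q.2.1.1)) (R * ‖q.2.1.2‖ - ‖q.2.2‖)) := by fun_prop
  exact h6.continuousOn.inf h5

theorem continuousOn_rayF (hρ : ContinuousOn ρ s) (hf : ContinuousOn f s)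
    (hℓ : ContinuousOn ℓ s) :
    ContinuousOn (fun q : T × ((ℝ × P) × V) => rayF (ρ q.1) (f q.1) (ℓ q.1) q.2)
      (s ×ˢ univ) := by
  have h1 : ContinuousOn (fun q : T × ((ℝ × P) × V) => ρ q.1) (s ×ˢ univ) :=
    hρ.comp continuousOn_fst fun q hq => hq.1
  have h2 : ContinuousOn (fun q : T × ((ℝ × P) × V) => f q.1) (s ×ˢ univ) :=
    hf.comp continuousOn_fst fun q hq => hq.1
  have h3 : ContinuousOn (fun q : T × ((ℝ × P) × V) => ℓ q.1) (s ×ˢ univ) :=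
    hℓ.comp continuousOn_fst fun q hq => hq.1
  have h4 : Continuous (fun q : T × ((ℝ × P) × V) => ((q.2.1.1, q.2.2) : ℝ × V)) := by fun_prop
  have h5 : ContinuousOn (fun q : T × ((ℝ × P) × V) => ℓ q.1 (q.2.1.1, q.2.2)) (s ×ˢ univ) :=
    h3.clm_apply h4.continuousOn
  exact (h1.mul h5).sub (h4.continuousOn.sub (h5.smul h2)).norm

theorem continuousOn_swA (hσ : ContinuousOn σ s) (hρ : ContinuousOn ρ s) (hf : ContinuousOn f s)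
    (hℓ : ContinuousOn ℓ s) :
    ContinuousOn (fun q : T × ((ℝ × P) × V) => swA κ M R (σ q.1) (ρ q.1) (f q.1) (ℓ q.1) q.2)
      (s ×ˢ univ) := by
  have h1 : Continuous (fun q : T × ((ℝ × P) × V) => -κ * ‖q.2‖) := by fun_prop
  exact h1.continuousOn.sup ((continuousOn_slabσ hσ).sup (continuousOn_rayF hρ hf hℓ))

/-- Increment of the ray. -/
theorem rayF_add (r : ℝ) (g : ℝ × V) (m : ℝ × V →L[ℝ] ℝ) (x : (ℝ × P) × V) (t : ℝ)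
    (a : (ℝ × P) × V) :
    (0 ≤ t → t * (r * m (a.1.1, a.2) - ‖(a.1.1, a.2) - m (a.1.1, a.2) • g‖) ≤
        rayF r g m (x + t • a) - rayF r g m x) ∧
      |rayF r g m (x + t • a) - rayF r g m x| ≤
        (|r * m (a.1.1, a.2)| + ‖(a.1.1, a.2) - m (a.1.1, a.2) • g‖) * |t| := by
  have e0 : (((x + t • a).1.1, (x + t • a).2) : ℝ × V) = (x.1.1, x.2) + t • (a.1.1, a.2) := rfl
  have e1 : m ((x + t • a).1.1, (x + t • a).2) = m (x.1.1, x.2) + t * m (a.1.1, a.2) := by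
    rw [e0, map_add, map_smul, smul_eq_mul]
  set w : ℝ × V := (x.1.1, x.2) with hw
  set d : ℝ × V := (a.1.1, a.2) with hd
  have e2 : w + t • d - (m w + t * m d) • g = (w - m w • g) + t • (d - m d • g) := by
    rw [add_smul, smul_sub, smul_smul]; abel
  have e3 : rayF r g m (x + t • a) - rayF r g m x =
      t * (r * m d) - (‖(w - m w • g) + t • (d - m d • g)‖ - ‖w - m w • g‖) := by
    unfold rayF
    rw [e1, e0, e2]; ring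
  have e4 : |‖(w - m w • g) + t • (d - m d • g)‖ - ‖w - m w • g‖| ≤ |t| * ‖d - m d • g‖ := by
    refine (abs_norm_sub_norm_le _ _).trans ?_
    rw [add_sub_cancel_left, norm_smul, Real.norm_eq_abs]
  rw [e3]
  refine ⟨fun ht => ?_, ?_⟩
  · have h1 := (abs_le.mp e4).2
    rw [abs_of_nonneg ht] at h1
    nlinarith
  · refine (abs_sub _ _).trans ?_
    rw [abs_mul]
    nlinarith [abs_nonneg t]

/-! ### Directional Lipschitz estimates -/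

theorem abs_norm_add_smul_sub {W : Type*} [NormedAddCommGroup W] [NormedSpace ℝ W] (p d : W)
    (t : ℝ) : |‖p + t • d‖ - ‖p‖| ≤ ‖d‖ * |t| := by
  refine (abs_norm_sub_norm_le _ _).trans ?_
  rw [add_sub_cancel_left, norm_smul, Real.norm_eq_abs, mul_comm]

theorem dirLip_slabσ (hσ1 : ∀ τ ∈ s, |σ τ| ≤ 1) {τ₀ : T} (x₀ a : (ℝ × P) × V) :
    DirLip s (fun τ x => slabσ M R (σ τ) x) τ₀ x₀ a := by
  have h1 : DirLip s (fun (_ : T) (x : (ℝ × P) × V) => M * (‖x.1.2‖ - x.1.1)) τ₀ x₀ a := by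
    refine DirLip.of_global (L := |M| * (‖a.1.2‖ + |a.1.1|)) (Eventually.of_forall ?_)
    intro _ x t
    have e : M * (‖(x + t • a).1.2‖ - (x + t • a).1.1) - M * (‖x.1.2‖ - x.1.1) =
        M * ((‖x.1.2 + t • a.1.2‖ - ‖x.1.2‖) - t * a.1.1) := by
      show M * (‖x.1.2 + t • a.1.2‖ - (x.1.1 + t * a.1.1)) - M * (‖x.1.2‖ - x.1.1) = _
      ring
    rw [e, abs_mul, mul_assoc]
    refine mul_le_mul_of_nonneg_left ?_ (abs_nonneg _)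
    refine (abs_sub _ _).trans ?_
    rw [abs_mul, add_mul, mul_comm |t|]
    exact add_le_add (abs_norm_add_smul_sub _ _ _) le_rfl
  have h2 : DirLip s (fun (_ : T) (x : (ℝ × P) × V) => R * ‖x.1.2‖ - ‖x.2‖) τ₀ x₀ a := by
    refine DirLip.of_global (L := |R| * ‖a.1.2‖ + ‖a.2‖) (Eventually.of_forall ?_)
    intro _ x t
    have e : R * ‖(x + t • a).1.2‖ - ‖(x + t • a).2‖ - (R * ‖x.1.2‖ - ‖x.2‖) =
        R * (‖x.1.2 + t • a.1.2‖ - ‖x.1.2‖) - (‖x.2 + t • a.2‖ - ‖x.2‖) := by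
      show R * ‖x.1.2 + t • a.1.2‖ - ‖x.2 + t • a.2‖ - (R * ‖x.1.2‖ - ‖x.2‖) = _
      ring
    rw [e]
    refine (abs_sub _ _).trans ?_
    rw [abs_mul, add_mul, mul_assoc]
    exact add_le_add (mul_le_mul_of_nonneg_left (abs_norm_add_smul_sub _ _ _) (abs_nonneg _))
      (abs_norm_add_smul_sub _ _ _)
  have h3 : DirLip s (fun (τ : T) (x : (ℝ × P) × V) => M * (‖x.1.2‖ + σ τ * x.1.1)) τ₀ x₀ a := by
    refine DirLip.of_global (L := |M| * (‖a.1.2‖ + |a.1.1|)) ?_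
    filter_upwards [self_mem_nhdsWithin] with τ hτ x t
    have e : M * (‖(x + t • a).1.2‖ + σ τ * (x + t • a).1.1) - M * (‖x.1.2‖ + σ τ * x.1.1) =
        M * ((‖x.1.2 + t • a.1.2‖ - ‖x.1.2‖) + t * (σ τ * a.1.1)) := by
      show M * (‖x.1.2 + t • a.1.2‖ + σ τ * (x.1.1 + t * a.1.1)) -
        M * (‖x.1.2‖ + σ τ * x.1.1) = _
      ring
    rw [e, abs_mul, mul_assoc]
    refine mul_le_mul_of_nonneg_left ?_ (abs_nonneg _)
    refine (abs_add_le _ _).trans ?_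
    rw [abs_mul, add_mul, mul_comm |t|, abs_mul]
    refine add_le_add (abs_norm_add_smul_sub _ _ _) (mul_le_mul_of_nonneg_right ?_ (abs_nonneg _))
    calc |σ τ| * |a.1.1| ≤ 1 * |a.1.1| := mul_le_mul_of_nonneg_right (hσ1 τ hτ) (abs_nonneg _)
      _ = _ := one_mul _
  exact (h1.min h2).min h3

theorem dirLip_rayF (hρ : ContinuousOn ρ s) (hf : ContinuousOn f s) (hℓ : ContinuousOn ℓ s)
    {τ₀ : T} (hτ₀ : τ₀ ∈ s) (x₀ a : (ℝ × P) × V) :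
    DirLip s (fun τ x => rayF (ρ τ) (f τ) (ℓ τ) x) τ₀ x₀ a := by
  have hm : ContinuousOn (fun τ => ℓ τ (a.1.1, a.2)) s := hℓ.clm_apply continuousOn_const
  have hc : ContinuousOn (fun τ => |ρ τ * ℓ τ (a.1.1, a.2)| +
      ‖((a.1.1, a.2) : ℝ × V) - ℓ τ (a.1.1, a.2) • f τ‖) s :=
    (hρ.mul hm).abs.add (continuousOn_const.sub (hm.smul hf)).norm
  have h1 := (hc τ₀ hτ₀).eventually_lt_const (lt_add_one _)
  refine DirLip.of_global (L := |ρ τ₀ * ℓ τ₀ (a.1.1, a.2)| +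
      ‖((a.1.1, a.2) : ℝ × V) - ℓ τ₀ (a.1.1, a.2) • f τ₀‖ + 1) ?_
  filter_upwards [h1] with τ hτ x t
  exact ((rayF_add (ρ τ) (f τ) (ℓ τ) x t a).2).trans
    (mul_le_mul_of_nonneg_right hτ.le (abs_nonneg _))

theorem dirLip_swA (hσ1 : ∀ τ ∈ s, |σ τ| ≤ 1) (hρ : ContinuousOn ρ s) (hf : ContinuousOn f s)
    (hℓ : ContinuousOn ℓ s) {τ₀ : T} (hτ₀ : τ₀ ∈ s) (x₀ a : (ℝ × P) × V) :
    DirLip s (fun τ x => swA κ M R (σ τ) (ρ τ) (f τ) (ℓ τ) x) τ₀ x₀ a := by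
  have h1 : DirLip s (fun (_ : T) (x : (ℝ × P) × V) => -κ * ‖x‖) τ₀ x₀ a := by
    refine DirLip.of_global (L := |κ| * ‖a‖) (Eventually.of_forall ?_)
    intro _ x t
    have e : -κ * ‖x + t • a‖ - -κ * ‖x‖ = -κ * (‖x + t • a‖ - ‖x‖) := by ring
    rw [e, abs_mul, abs_neg, mul_assoc]
    exact mul_le_mul_of_nonneg_left (abs_norm_add_smul_sub _ _ _) (abs_nonneg _)
  exact h1.max ((dirLip_slabσ hσ1 x₀ a).max (dirLip_rayF hρ hf hℓ hτ₀ x₀ a))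

/-! ### Growth -/

theorem grows_slabσ (hσ1 : ∀ τ ∈ s, |σ τ| ≤ 1) (hM : 0 < M) (hR : 0 < R) {τ₀ : T}
    {x₀ : (ℝ × P) × V} (hp : x₀.1.2 ≠ 0) {g : ℝ × V} {lam : ℝ} (h1 : |g.1| + 1 ≤ lam / 2)
    (h2 : ‖g.2‖ + 1 ≤ R * (lam / 2)) :
    Grows s (fun τ x => slabσ M R (σ τ) x) τ₀ x₀
      ((g.1, (lam / ‖x₀.1.2‖) • x₀.1.2), g.2) := by
  have hn : 0 < ‖x₀.1.2‖ := norm_pos_iff.mpr hp
  have hlam : 0 < lam := by
    have := abs_nonneg g.1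
    linarith
  set d : P := (lam / ‖x₀.1.2‖) • x₀.1.2 with hd
  have hU : {x : (ℝ × P) × V | ‖x.1.2 - x₀.1.2‖ ≤ ‖x₀.1.2‖ / 4} ∈ 𝓝 x₀ := by
    have hc : Continuous fun x : (ℝ × P) × V => ‖x.1.2 - x₀.1.2‖ := by fun_prop
    have h3 : ‖x₀.1.2 - x₀.1.2‖ < ‖x₀.1.2‖ / 4 := by rw [sub_self, norm_zero]; linarith
    filter_upwards [hc.continuousAt.eventually_lt_const h3] with x hx
    exact le_of_lt hx
  refine ⟨min M 1, lt_min hM one_pos, _, hU, ?_⟩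
  filter_upwards [self_mem_nhdsWithin] with τ hτ
  have hστ := hσ1 τ hτ
  have hinc : ∀ x : (ℝ × P) × V, ‖x.1.2 - x₀.1.2‖ ≤ ‖x₀.1.2‖ / 4 → ∀ t : ℝ, 0 < t →
      lam / 2 * t ≤ ‖x.1.2 + t • d‖ - ‖x.1.2‖ := fun x hx t ht =>
    norm_growth hp hlam hx ht.le
  refine GrowsOn.min (GrowsOn.min ?_ ?_) ?_
  · refine GrowsOn.of_pos fun x hx t ht _ => ?_
    have e : M * (‖(x + t • (((g.1, d), g.2) : (ℝ × P) × V)).1.2‖ -
        (x + t • (((g.1, d), g.2) : (ℝ × P) × V)).1.1) - M * (‖x.1.2‖ - x.1.1) =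
        M * ((‖x.1.2 + t • d‖ - ‖x.1.2‖) - t * g.1) := by
      show M * (‖x.1.2 + t • d‖ - (x.1.1 + t * g.1)) - M * (‖x.1.2‖ - x.1.1) = _
      ring
    rw [e]
    have i1 := hinc x hx t ht
    have i2 := le_abs_self g.1
    have i3 : t ≤ (‖x.1.2 + t • d‖ - ‖x.1.2‖) - t * g.1 := by nlinarith
    calc min M 1 * t ≤ M * t := mul_le_mul_of_nonneg_right (min_le_left _ _) ht.le
      _ ≤ _ := mul_le_mul_of_nonneg_left i3 hM.le
  · refine GrowsOn.of_pos fun x hx t ht _ => ?_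
    have e : R * ‖(x + t • (((g.1, d), g.2) : (ℝ × P) × V)).1.2‖ -
        ‖(x + t • (((g.1, d), g.2) : (ℝ × P) × V)).2‖ - (R * ‖x.1.2‖ - ‖x.2‖) =
        R * (‖x.1.2 + t • d‖ - ‖x.1.2‖) - (‖x.2 + t • g.2‖ - ‖x.2‖) := by
      show R * ‖x.1.2 + t • d‖ - ‖x.2 + t • g.2‖ - (R * ‖x.1.2‖ - ‖x.2‖) = _
      ring
    rw [e]
    have i1 := mul_le_mul_of_nonneg_left (hinc x hx t ht) hR.le
    have i2 := (abs_le.mp (abs_norm_add_smul_sub x.2 g.2 t)).2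
    rw [abs_of_pos ht] at i2
    have i3 : min M 1 * t ≤ 1 * t := mul_le_mul_of_nonneg_right (min_le_right _ _) ht.le
    nlinarith
  · refine GrowsOn.of_pos fun x hx t ht _ => ?_
    have e : M * (‖(x + t • (((g.1, d), g.2) : (ℝ × P) × V)).1.2‖ +
        σ τ * (x + t • (((g.1, d), g.2) : (ℝ × P) × V)).1.1) - M * (‖x.1.2‖ + σ τ * x.1.1) =
        M * ((‖x.1.2 + t • d‖ - ‖x.1.2‖) + t * (σ τ * g.1)) := by
      show M * (‖x.1.2 + t • d‖ + σ τ * (x.1.1 + t * g.1)) - M * (‖x.1.2‖ + σ τ * x.1.1) = _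
      ring
    rw [e]
    have i1 := hinc x hx t ht
    have i2 : |σ τ * g.1| ≤ |g.1| := by
      rw [abs_mul]
      calc |σ τ| * |g.1| ≤ 1 * |g.1| := mul_le_mul_of_nonneg_right hστ (abs_nonneg _)
        _ = _ := one_mul _
    have i3 := (abs_le.mp i2).1
    have i4 : t ≤ (‖x.1.2 + t • d‖ - ‖x.1.2‖) + t * (σ τ * g.1) := by nlinarith
    calc min M 1 * t ≤ M * t := mul_le_mul_of_nonneg_right (min_le_left _ _) ht.le
      _ ≤ _ := mul_le_mul_of_nonneg_left i4 hM.le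

theorem grows_rayF (hρ : ContinuousOn ρ s) (hf : ContinuousOn f s) (hℓ : ContinuousOn ℓ s)
    {τ₀ : T} (hτ₀ : τ₀ ∈ s) (hρ0 : 0 < ρ τ₀) (hℓf : ℓ τ₀ (f τ₀) = 1) (x₀ : (ℝ × P) × V)
    {a : (ℝ × P) × V} (ha : ((a.1.1, a.2) : ℝ × V) = f τ₀) :
    Grows s (fun τ x => rayF (ρ τ) (f τ) (ℓ τ) x) τ₀ x₀ a := by
  have hm : ContinuousOn (fun τ => ℓ τ (f τ₀)) s := hℓ.clm_apply continuousOn_const
  have hc : ContinuousOn (fun τ => ρ τ * ℓ τ (f τ₀) - ‖f τ₀ - ℓ τ (f τ₀) • f τ‖) s :=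
    (hρ.mul hm).sub (continuousOn_const.sub (hm.smul hf)).norm
  have h0 : ρ τ₀ * ℓ τ₀ (f τ₀) - ‖f τ₀ - ℓ τ₀ (f τ₀) • f τ₀‖ = ρ τ₀ := by
    rw [hℓf, one_smul, sub_self, norm_zero]; ring
  have h1 : ρ τ₀ / 2 < ρ τ₀ * ℓ τ₀ (f τ₀) - ‖f τ₀ - ℓ τ₀ (f τ₀) • f τ₀‖ := by
    rw [h0]; linarith
  refine ⟨ρ τ₀ / 2, by linarith, univ, univ_mem, ?_⟩
  filter_upwards [(hc τ₀ hτ₀).eventually_const_lt h1] with τ hτ
  refine GrowsOn.of_pos fun x _ t ht _ => ?_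
  have h2 := (rayF_add (ρ τ) (f τ) (ℓ τ) x t a).1 ht.le
  rw [ha] at h2
  refine le_trans ?_ h2
  rw [mul_comm]
  exact mul_le_mul_of_nonneg_left hτ.le ht.le

/-- **Regularity of the real family at its zeros.** -/
theorem regAt_swA (hσ : ContinuousOn σ s) (hσ1 : ∀ τ ∈ s, |σ τ| ≤ 1) (hρ : ContinuousOn ρ s)
    (hf : ContinuousOn f s) (hℓ : ContinuousOn ℓ s) (hρ0 : ∀ τ ∈ s, 0 < ρ τ)
    (hℓf : ∀ τ ∈ s, ℓ τ (f τ) = 1) (hκ : 0 < κ) (hM : 0 < M) (hR : 0 < R) {l : V →L[ℝ] ℝ}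
    {h : V} (hl : l h = 1) (hlf : ∀ τ ∈ s, l (f τ).2 = 0)
    (hp : ∀ τ ∈ s, ∀ x : (ℝ × P) × V, x ≠ 0 → x.1.2 = 0 → 0 ≤ slabσ M R (σ τ) x →
      0 < rayF (ρ τ) (f τ) (ℓ τ) x)
    {τ₀ : T} (hτ₀ : τ₀ ∈ s) {x₀ : (ℝ × P) × V} (hx₀ : x₀ ≠ 0)
    (hz : swA κ M R (σ τ₀) (ρ τ₀) (f τ₀) (ℓ τ₀) x₀ = 0) :
    RegAt s (fun τ x => (⟨swA κ M R (σ τ) (ρ τ) (f τ) (ℓ τ) x, l x.2⟩ : ℂ)) τ₀ x₀ := by
  have hn : 0 < ‖x₀‖ := norm_pos_iff.mpr hx₀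
  have hneg : -κ * ‖x₀‖ < 0 := by nlinarith
  have hz' : max (slabσ M R (σ τ₀) x₀) (rayF (ρ τ₀) (f τ₀) (ℓ τ₀) x₀) = 0 := by
    rcases max_choice (-κ * ‖x₀‖)
      (max (slabσ M R (σ τ₀) x₀) (rayF (ρ τ₀) (f τ₀) (ℓ τ₀) x₀)) with h1 | h1
    · have : swA κ M R (σ τ₀) (ρ τ₀) (f τ₀) (ℓ τ₀) x₀ = -κ * ‖x₀‖ := h1
      rw [hz] at this; linarith
    · rw [← h1]; exact hz
  obtain ⟨lam, hlam1, hlam2⟩ : ∃ lam : ℝ, |(f τ₀).1| + 1 ≤ lam / 2 ∧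
      ‖(f τ₀).2‖ + 1 ≤ R * (lam / 2) := by
    refine ⟨2 * (|(f τ₀).1| + 1 + (‖(f τ₀).2‖ + 1) / R), ?_, ?_⟩
    · have : 0 ≤ (‖(f τ₀).2‖ + 1) / R := by positivity
      linarith
    · have h1 : R * ((‖(f τ₀).2‖ + 1) / R) = ‖(f τ₀).2‖ + 1 := by field_simp
      have h2 : 0 ≤ R * (|(f τ₀).1| + 1) := by positivity
      nlinarith
  set a : (ℝ × P) × V := (((f τ₀).1, (lam / ‖x₀.1.2‖) • x₀.1.2), (f τ₀).2) with ha
  have haf : ((a.1.1, a.2) : ℝ × V) = f τ₀ := rfl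
  have hct1 : CtAt s (fun τ x => slabσ M R (σ τ) x) τ₀ x₀ :=
    continuousOn_slabσ hσ (τ₀, x₀) ⟨hτ₀, mem_univ _⟩
  have hct2 : CtAt s (fun τ x => rayF (ρ τ) (f τ) (ℓ τ) x) τ₀ x₀ :=
    continuousOn_rayF hρ hf hℓ (τ₀, x₀) ⟨hτ₀, mem_univ _⟩
  have hct3 : CtAt s (fun (_ : T) (x : (ℝ × P) × V) => -κ * ‖x‖) τ₀ x₀ := by
    have : Continuous (fun q : T × ((ℝ × P) × V) => -κ * ‖q.2‖) := by fun_prop
    exact this.continuousWithinAt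
  have hgr2 := grows_rayF hρ hf hℓ hτ₀ (hρ0 τ₀ hτ₀) (hℓf τ₀ hτ₀) x₀ haf
  have hgr : Grows s (fun τ x => max (slabσ M R (σ τ) x) (rayF (ρ τ) (f τ) (ℓ τ) x)) τ₀ x₀ a := by
    by_cases hp0 : x₀.1.2 = 0
    · have h1 : slabσ M R (σ τ₀) x₀ < rayF (ρ τ₀) (f τ₀) (ℓ τ₀) x₀ := by
        by_contra hcon
        have hcon := not_lt.mp hcon
        rw [max_eq_left hcon] at hz'
        have h2 := hp τ₀ hτ₀ x₀ hx₀ hp0 hz'.ge
        rw [hz'] at hcon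
        linarith
      exact Grows.max_of_lt hct1 hct2 h1 hgr2
    · exact (grows_slabσ hσ1 hM hR hp0 hlam1 hlam2).max hgr2
  have hgrA : Grows s (fun τ x => swA κ M R (σ τ) (ρ τ) (f τ) (ℓ τ) x) τ₀ x₀ a := by
    have hct4 : CtAt s (fun τ x => max (slabσ M R (σ τ) x) (rayF (ρ τ) (f τ) (ℓ τ) x)) τ₀ x₀ :=
      ContinuousWithinAt.sup hct1 hct2
    exact Grows.max_of_lt hct3 hct4 (by show -κ * ‖x₀‖ < max _ _; rw [hz']; exact hneg) hgr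
  refine RegAt.of_real_zero (l.comp (ContinuousLinearMap.snd ℝ (ℝ × P) V))
    (e := ((0, h) : (ℝ × P) × V)) ?_ ⟨univ, univ_mem, Eventually.of_forall fun _ _ _ => rfl⟩
    (a := a) ?_ hgrA (dirLip_swA hσ1 hρ hf hℓ hτ₀ x₀ a) (dirLip_swA hσ1 hρ hf hℓ hτ₀ x₀ _)
  · show l h = 1
    exact hl
  · show l (f τ₀).2 = 0
    exact hlf τ₀ hτ₀

end fam

end Vale.Agent.P268.T
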