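import Vale.Agent.P268.T.H863.KA
import Vale.Agent.P268.T.N625.RealR

/-!
# P268, topological half, block B4b: gluing families of class `R` over open cones
-/

set_option linter.unusedSectionVars false

namespace Vale.Agent.P268.T

open Set Filter Topology

variable {E : Type*} [NormedAddCommGroup E] [NormedSpace ℝ E]
  {T : Type*} [TopologicalSpace T]

/-- **Gluing**: a function `Φ` on the open cone `U` and a family `G` elsewhere, equal on `U ∩ V`,
where `V` is open and `U ∪ V` is everything but the origin. -/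
theorem RFam.glue_open {s : Set T} {Φ : E → ℂ} {G : T → E → ℂ} {U V : Set E}
    [DecidablePred (· ∈ U)] (hU : IsOpen U) (hV : IsOpen V)
    (hUV : ∀ x, x ≠ 0 → x ∈ U ∨ x ∈ V) (hUc : ∀ x ∈ U, ∀ k : ℝ, 0 < k → k • x ∈ U)
    (hΦc : Continuous Φ) (hΦh : Hom1 Φ)
    (hΦr : ∀ x ∈ U, x ≠ 0 → Φ x = 0 → RegAt (univ : Set Unit) (fun _ => Φ) () x)
    (hGc : ContinuousOn (fun p : T × E => G p.1 p.2) (s ×ˢ univ)) (hGh : ∀ τ ∈ s, Hom1 (G τ))
    (hGr : ∀ τ ∈ s, ∀ x, x ≠ 0 → x ∉ U → G τ x = 0 → RegAt s G τ x)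
    (hΦG : ∀ τ ∈ s, ∀ x ∈ U, x ∈ V → Φ x = G τ x) :
    RFam s (fun τ x => if x ∈ U then Φ x else G τ x) := by
  have hon : ∀ τ, ∀ x ∈ U, (if x ∈ U then Φ x else G τ x) = Φ x := fun τ x hx => if_pos hx
  have hoff : ∀ τ ∈ s, ∀ x ∈ V, (if x ∈ U then Φ x else G τ x) = G τ x := by
    intro τ hτ x hx
    by_cases hxU : x ∈ U
    · rw [if_pos hxU]; exact hΦG τ hτ x hxU hx
    · rw [if_neg hxU]
  refine ⟨?_, ?_, ?_⟩
  · rintro ⟨τ, x⟩ ⟨hτ, -⟩
    have hτ : τ ∈ s := hτ
    by_cases hx0 : x = 0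
    · subst hx0
      have hΦ0 : Φ 0 = 0 := hΦh.zero
      have hG0 : G τ 0 = 0 := (hGh τ hτ).zero
      have h0 : (if (0 : E) ∈ U then Φ 0 else G τ 0) = 0 := by
        split_ifs
        · exact hΦ0
        · exact hG0
      have h1 : Tendsto (fun p : T × E => ‖Φ p.2‖ + ‖G p.1 p.2‖) (𝓝[s ×ˢ univ] (τ, 0)) (𝓝 0) := by
        have e1 : Tendsto (fun p : T × E => ‖Φ p.2‖) (𝓝[s ×ˢ univ] (τ, 0)) (𝓝 ‖Φ 0‖) :=
          ((hΦc.comp continuous_snd).norm.continuousAt (x := (τ, (0 : E)))).mono_left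
            nhdsWithin_le_nhds
        have e2 : Tendsto (fun p : T × E => ‖G p.1 p.2‖) (𝓝[s ×ˢ univ] (τ, 0)) (𝓝 ‖G τ 0‖) :=
          (hGc (τ, 0) ⟨hτ, mem_univ _⟩).norm
        have := e1.add e2
        rwa [hΦ0, hG0, norm_zero, add_zero] at this
      show Tendsto (fun p : T × E => if p.2 ∈ U then Φ p.2 else G p.1 p.2)
        (𝓝[s ×ˢ univ] (τ, 0)) (𝓝 (if (0 : E) ∈ U then Φ 0 else G τ 0))
      rw [h0]
      refine squeeze_zero_norm (fun p => ?_) h1
      split_ifs
      · linarith [norm_nonneg (G p.1 p.2)]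
      · linarith [norm_nonneg (Φ p.2)]
    · rcases hUV x hx0 with hxU | hxV
      · have h1 : ContinuousWithinAt (fun p : T × E => Φ p.2) (s ×ˢ univ) (τ, x) :=
          (hΦc.comp continuous_snd).continuousWithinAt
        refine h1.congr_of_eventuallyEq ?_ (hon τ x hxU)
        have : {p : T × E | p.2 ∈ U} ∈ 𝓝[s ×ˢ univ] (τ, x) :=
          mem_nhdsWithin_of_mem_nhds (continuous_snd.continuousAt.preimage_mem_nhds
            (hU.mem_nhds hxU))
        filter_upwards [this] with p hp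
        exact hon p.1 p.2 hp
      · have h1 : ContinuousWithinAt (fun p : T × E => G p.1 p.2) (s ×ˢ univ) (τ, x) :=
          hGc (τ, x) ⟨hτ, mem_univ _⟩
        refine h1.congr_of_eventuallyEq ?_ (hoff τ hτ x hxV)
        have : {p : T × E | p.2 ∈ V} ∈ 𝓝[s ×ˢ univ] (τ, x) :=
          mem_nhdsWithin_of_mem_nhds (continuous_snd.continuousAt.preimage_mem_nhds
            (hV.mem_nhds hxV))
        filter_upwards [this, self_mem_nhdsWithin] with p hp hps
        exact hoff p.1 hps.1 p.2 hp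
  · intro τ hτ k hk x
    rcases hk.eq_or_lt with rfl | hk'
    · rw [zero_smul, zero_smul]
      show (if (0 : E) ∈ U then Φ 0 else G τ 0) = 0
      split_ifs
      · exact hΦh.zero
      · exact (hGh τ hτ).zero
    · by_cases hx : x ∈ U
      · show (if k • x ∈ U then Φ (k • x) else G τ (k • x)) = k • (if x ∈ U then Φ x else G τ x)
        rw [if_pos hx, if_pos (hUc x hx k hk'), hΦh k hk]
      · have hkx : k • x ∉ U := by
          intro hcon
          apply hx
          have := hUc (k • x) hcon k⁻¹ (inv_pos.mpr hk')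
          rwa [smul_smul, inv_mul_cancel₀ hk'.ne', one_smul] at this
        show (if k • x ∈ U then Φ (k • x) else G τ (k • x)) = k • (if x ∈ U then Φ x else G τ x)
        rw [if_neg hx, if_neg hkx, hGh τ hτ k hk]
  · intro τ hτ x hx h0
    by_cases hxU : x ∈ U
    · rw [hon τ x hxU] at h0
      refine ((hΦr x hxU hx h0).const s τ).congr ⟨U, hU.mem_nhds hxU, ?_⟩
      exact Eventually.of_forall fun t y hy => (hon t y hy).symm
    · have hxV : x ∈ V := (hUV x hx).resolve_left hxU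
      rw [hoff τ hτ x hxV] at h0
      refine (hGr τ hτ x hx hxU h0).congr ⟨V, hV.mem_nhds hxV, ?_⟩
      filter_upwards [self_mem_nhdsWithin] with t ht y hy
      exact (hoff t ht y hy).symm

/-- Bound for a positively homogeneous continuous function. -/
theorem Hom1.exists_bound {Z : Type*} [NormedAddCommGroup Z] [NormedSpace ℝ Z]
    [FiniteDimensional ℝ E] {F : E → Z} (hc : Continuous F) (hh : Hom1 F) :
    ∃ C : ℝ, 0 < C ∧ ∀ x, ‖F x‖ ≤ C * ‖x‖ := by
  have hp : ProperSpace E := FiniteDimensional.proper ℝ E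
  obtain ⟨C, hC⟩ := (isCompact_closedBall (0 : E) 1).exists_bound_of_continuousOn hc.continuousOn
  refine ⟨max C 1, lt_max_of_lt_right one_pos, fun x => ?_⟩
  by_cases hx : x = 0
  · rw [hx, hh.zero]; simp
  · have hn : 0 < ‖x‖ := norm_pos_iff.mpr hx
    have e1 : F x = ‖x‖ • F (‖x‖⁻¹ • x) := by
      rw [← hh _ hn.le, smul_smul, mul_inv_cancel₀ hn.ne', one_smul]
    have e2 : ‖F (‖x‖⁻¹ • x)‖ ≤ C := by
      refine hC _ ?_
      rw [mem_closedBall_zero_iff, norm_smul, norm_inv, norm_norm, inv_mul_cancel₀ hn.ne']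
    rw [e1, norm_smul, norm_norm, mul_comm]
    exact mul_le_mul_of_nonneg_right (e2.trans (le_max_left _ _)) hn.le

end Vale.Agent.P268.T
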