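import Vale.Agent.P268.T.H863.Glue

/-!
# P268, topological half, block B4b: isolating the sheets

`sharp κ q B l F` has the zeros of `F` inside a cone and is `⟨max B (-κ ‖x‖), l⟩` where
`q ≤ -κ ‖x‖`.
-/

set_option linter.unusedSectionVars false

namespace Vale.Agent.P268.T

open Set Filter Topology

variable {E : Type*} [NormedAddCommGroup E] [NormedSpace ℝ E]

/-- The modified function. -/
noncomputable def sharp (κ : ℝ) (q B : E → ℝ) (l : E →L[ℝ] ℝ) (F : E → ℂ) (x : E) : ℂ :=
  ⟨max (-κ * ‖x‖) (max (B x) (min (F x).re (q x))),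
    l x + max (-max (q x) 0) (min (max (q x) 0) ((F x).im - l x))⟩

variable {κ : ℝ} {q B : E → ℝ} {l : E →L[ℝ] ℝ} {F : E → ℂ}

private theorem continuous_mk {X : Type*} [TopologicalSpace X] {f g : X → ℝ} (hf : Continuous f)
    (hg : Continuous g) : Continuous fun x => (⟨f x, g x⟩ : ℂ) := by
  have e : (fun x => (⟨f x, g x⟩ : ℂ)) = fun x => (f x : ℂ) + (g x : ℂ) * Complex.I := by
    funext x; apply Complex.ext <;> simp
  rw [e]
  exact (Complex.continuous_ofReal.comp hf).add
    ((Complex.continuous_ofReal.comp hg).mul continuous_const)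

theorem continuousOn_mk {X : Type*} [TopologicalSpace X] {S : Set X} {f g : X → ℝ}
    (hf : ContinuousOn f S) (hg : ContinuousOn g S) :
    ContinuousOn (fun x => (⟨f x, g x⟩ : ℂ)) S := by
  have e : (fun x => (⟨f x, g x⟩ : ℂ)) = fun x => (f x : ℂ) + (g x : ℂ) * Complex.I := by
    funext x; apply Complex.ext <;> simp
  rw [e]
  exact (Complex.continuous_ofReal.comp_continuousOn hf).add
    ((Complex.continuous_ofReal.comp_continuousOn hg).mul continuousOn_const)

theorem continuous_sharp (hF : Continuous F) (hq : Continuous q) (hB : Continuous B) :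
    Continuous (sharp κ q B l F) := by
  have h1 : Continuous fun x => (F x).re := Complex.continuous_re.comp hF
  have h2 : Continuous fun x => (F x).im := Complex.continuous_im.comp hF
  unfold sharp
  exact continuous_mk (by fun_prop) (by fun_prop)

theorem hom1_sharp (hF : Hom1 F) (hq : ∀ k : ℝ, 0 ≤ k → ∀ x, q (k • x) = k * q x)
    (hB : ∀ k : ℝ, 0 ≤ k → ∀ x, B (k • x) = k * B x) : Hom1 (sharp κ q B l F) := by
  intro k hk x
  have e1 : (F (k • x)).re = k * (F x).re := by rw [hF k hk]; simp
  have e2 : (F (k • x)).im = k * (F x).im := by rw [hF k hk]; simp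
  apply Complex.ext
  · show max (-κ * ‖k • x‖) (max (B (k • x)) (min (F (k • x)).re (q (k • x)))) =
      (k • sharp κ q B l F x).re
    rw [Complex.smul_re, smul_eq_mul, norm_smul, Real.norm_eq_abs, abs_of_nonneg hk, e1, hq k hk,
      hB k hk]
    show _ = k * max (-κ * ‖x‖) (max (B x) (min (F x).re (q x)))
    rw [mul_max_of_nonneg _ _ hk, mul_max_of_nonneg _ _ hk, mul_min_of_nonneg _ _ hk]
    congr 1
    ring
  · show l (k • x) + max (-max (q (k • x)) 0) (min (max (q (k • x)) 0)
      ((F (k • x)).im - l (k • x))) = (k • sharp κ q B l F x).im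
    rw [Complex.smul_im, smul_eq_mul, e2, hq k hk, map_smul, smul_eq_mul]
    show _ = k * (l x + max (-max (q x) 0) (min (max (q x) 0) ((F x).im - l x)))
    rw [mul_add, mul_max_of_nonneg _ _ hk, mul_min_of_nonneg _ _ hk, mul_neg,
      mul_max_of_nonneg _ _ hk, mul_zero, mul_sub]

/-- Where `q ≤ -κ ‖x‖` the sheets are not seen. -/
theorem sharp_of_neg (hκ : 0 ≤ κ) {x : E} (hx : q x ≤ -κ * ‖x‖) :
    sharp κ q B l F x = ⟨max (-κ * ‖x‖) (B x), l x⟩ := by
  have h0 : q x ≤ 0 := hx.trans (by nlinarith [norm_nonneg x])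
  apply Complex.ext
  · show max (-κ * ‖x‖) (max (B x) (min (F x).re (q x))) = max (-κ * ‖x‖) (B x)
    rw [← max_assoc]
    refine max_eq_left ?_
    exact ((min_le_right _ _).trans hx).trans (le_max_left _ _)
  · show l x + max (-max (q x) 0) (min (max (q x) 0) ((F x).im - l x)) = l x
    rw [max_eq_right h0, neg_zero]
    have : max 0 (min 0 ((F x).im - l x)) = 0 := max_eq_left (min_le_left _ _)
    rw [this, add_zero]

/-- The first kind of points: `q` is large. -/
theorem sharp_big (hκ : 0 < κ) (hF : Continuous F) {x : E} (hx : x ≠ 0)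
    (hq : ∀ᶠ y in 𝓝 x, (F y).re ≤ q y ∧ |(F y).im - l y| ≤ q y)
    (hB : ∀ᶠ y in 𝓝 x, B y ≤ (F y).re) :
    (sharp κ q B l F x = 0 ↔ F x = 0) ∧
      (F x = 0 → ∀ᶠ y in 𝓝 x, F y = sharp κ q B l F y) := by
  have hform : ∀ᶠ y in 𝓝 x, sharp κ q B l F y = ⟨max (-κ * ‖y‖) (F y).re, (F y).im⟩ := by
    filter_upwards [hq, hB] with y h1 h2
    have h3 : 0 ≤ q y := (abs_nonneg _).trans h1.2
    obtain ⟨h4, h5⟩ := abs_le.mp h1.2
    apply Complex.ext
    · show max (-κ * ‖y‖) (max (B y) (min (F y).re (q y))) = max (-κ * ‖y‖) (F y).re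
      rw [min_eq_left h1.1, max_eq_right h2]
    · show l y + max (-max (q y) 0) (min (max (q y) 0) ((F y).im - l y)) = (F y).im
      rw [max_eq_left h3, min_eq_right h5, max_eq_right h4]
      ring
  have hx0 : 0 < ‖x‖ := norm_pos_iff.mpr hx
  have hneg : -κ * ‖x‖ < 0 := by nlinarith
  have hxf := hform.self_of_nhds
  refine ⟨?_, ?_⟩
  · rw [hxf]
    constructor
    · intro h
      have h1 : max (-κ * ‖x‖) (F x).re = 0 := congrArg Complex.re h
      have h2 : (F x).im = 0 := congrArg Complex.im h
      have h3 : (F x).re = 0 := by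
        rcases max_choice (-κ * ‖x‖) (F x).re with h4 | h4
        · rw [h1] at h4; linarith
        · rw [← h4, h1]
      exact Complex.ext h3 h2
    · intro h
      rw [h]
      apply Complex.ext
      · show max (-κ * ‖x‖) (0 : ℂ).re = 0
        rw [Complex.zero_re]; exact max_eq_right hneg.le
      · rfl
  · intro h0
    have h1 : -κ * ‖x‖ < (F x).re := by rw [h0]; simpa using hneg
    have h2 : ∀ᶠ y in 𝓝 x, -κ * ‖y‖ < (F y).re := by
      have c1 : Continuous fun y : E => -κ * ‖y‖ := by fun_prop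
      have c2 : Continuous fun y : E => (F y).re := Complex.continuous_re.comp hF
      exact c1.continuousAt.eventually_lt c2.continuousAt h1
    filter_upwards [hform, h2] with y h3 h4
    rw [h3, max_eq_right h4.le]

/-- The second kind of points: `F` is the slab. -/
theorem sharp_loc (hκ : 0 < κ) (hF : Continuous F) {x : E} (hx : x ≠ 0)
    (hloc : 0 ≤ (F x).re → ∀ᶠ y in 𝓝 x, F y = ⟨B y, l y⟩) (hB : B x ≤ (F x).re) :
    (sharp κ q B l F x = 0 ↔ F x = 0) ∧
      (F x = 0 → ∀ᶠ y in 𝓝 x, F y = sharp κ q B l F y) := by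
  have hx0 : 0 < ‖x‖ := norm_pos_iff.mpr hx
  have hneg : -κ * ‖x‖ < 0 := by nlinarith
  have hform : 0 ≤ (F x).re → ∀ᶠ y in 𝓝 x, sharp κ q B l F y = ⟨max (-κ * ‖y‖) (B y), l y⟩ := by
    intro h0
    filter_upwards [hloc h0] with y h1
    have hre : (F y).re = B y := by rw [h1]
    have him : (F y).im = l y := by rw [h1]
    apply Complex.ext
    · show max (-κ * ‖y‖) (max (B y) (min (F y).re (q y))) = max (-κ * ‖y‖) (B y)
      rw [hre, max_eq_left (min_le_left _ _)]
    · show l y + max (-max (q y) 0) (min (max (q y) 0) ((F y).im - l y)) = l y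
      rw [him, sub_self, min_eq_right (le_max_right _ _), max_eq_right, add_zero]
      have := le_max_right (q y) 0
      linarith
  have hkey : sharp κ q B l F x = 0 → 0 ≤ (F x).re := by
    intro h
    have h1 : max (-κ * ‖x‖) (max (B x) (min (F x).re (q x))) = 0 := congrArg Complex.re h
    have h2 : 0 ≤ max (B x) (min (F x).re (q x)) := by
      rcases max_choice (-κ * ‖x‖) (max (B x) (min (F x).re (q x))) with h3 | h3
      · rw [h1] at h3; linarith
      · rw [← h3, h1]
    rcases le_max_iff.mp h2 with h3 | h3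
    · exact h3.trans hB
    · exact h3.trans (min_le_left _ _)
  have hiff : 0 ≤ (F x).re → (sharp κ q B l F x = 0 ↔ F x = 0) := by
    intro h0
    rw [(hform h0).self_of_nhds, (hloc h0).self_of_nhds]
    constructor
    · intro h
      have h1 : max (-κ * ‖x‖) (B x) = 0 := congrArg Complex.re h
      have h2 : l x = 0 := congrArg Complex.im h
      have h3 : B x = 0 := by
        rcases max_choice (-κ * ‖x‖) (B x) with h4 | h4
        · rw [h1] at h4; linarith
        · rw [← h4, h1]
      exact Complex.ext h3 h2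
    · intro h
      have h1 : B x = 0 := congrArg Complex.re h
      have h2 : l x = 0 := congrArg Complex.im h
      apply Complex.ext
      · show max (-κ * ‖x‖) (B x) = 0
        rw [h1]; exact max_eq_right hneg.le
      · exact h2
  refine ⟨⟨fun h => (hiff (hkey h)).mp h, fun h => (hiff (by rw [h]; simp)).mpr h⟩, fun h => ?_⟩
  have h0 : 0 ≤ (F x).re := by rw [h]; simp
  have h1 : -κ * ‖x‖ < (F x).re := by rw [h]; simpa using hneg
  have h2 : ∀ᶠ y in 𝓝 x, -κ * ‖y‖ < (F y).re := by
    have c1 : Continuous fun y : E => -κ * ‖y‖ := by fun_prop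
    have c2 : Continuous fun y : E => (F y).re := Complex.continuous_re.comp hF
    exact c1.continuousAt.eventually_lt c2.continuousAt h1
  filter_upwards [hform h0, hloc h0, h2] with y h3 h4 h5
  have h6 : (F y).re = B y := by rw [h4]
  rw [h6] at h5
  rw [h3, h4, max_eq_right h5.le]

end Vale.Agent.P268.T
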