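import Vale.Agent.P268.T.H863.SwingCore

/-!
# P268, topological half, block B4b: the swing, abstract form
-/

set_option linter.unusedSectionVars false

namespace Vale.Agent.P268.T

open Set Filter Topology

section

variable {P V : Type*} [NormedAddCommGroup P] [NormedSpace ℝ P]
  [NormedAddCommGroup V] [NormedSpace ℝ V]

/-- The function on the cone around the sheets. -/
noncomputable def swPhi (κ L r₀ M R : ℝ) (l : V →L[ℝ] ℝ) (F : (ℝ × P) × V → ℂ) :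
    (ℝ × P) × V → ℂ :=
  sharp κ (swq L r₀) (slab₁ M R) (l.comp (ContinuousLinearMap.snd ℝ (ℝ × P) V)) F

open Classical in
/-- The functions of the swing. -/
noncomputable def swH (κ L r₀ M R : ℝ) (l : V →L[ℝ] ℝ) (F : (ℝ × P) × V → ℂ) (σ ρ : ℝ)
    (f : ℝ × V) (ℓ : ℝ × V →L[ℝ] ℝ) (x : (ℝ × P) × V) : ℂ :=
  if x ∈ swU (3 * r₀) then swPhi κ L r₀ M R l F x else ⟨swA κ M R σ ρ f ℓ x, l x.2⟩

variable {κ L r₀ M R σ ρ ε : ℝ} {l : V →L[ℝ] ℝ} {F : (ℝ × P) × V → ℂ} {f : ℝ × V}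
  {ℓ : ℝ × V →L[ℝ] ℝ}

theorem swPhi_zero (hF : Hom1 F) : swPhi κ L r₀ M R l F 0 = 0 := by
  have h1 : swq L r₀ (0 : (ℝ × P) × V) = 0 := by
    have := swq_smul L r₀ 0 le_rfl (0 : (ℝ × P) × V)
    simpa using this
  have h2 : slab₁ M R (0 : (ℝ × P) × V) = 0 := by
    unfold slab₁; simp
  have h3 : F 0 = 0 := hF.zero
  unfold swPhi
  apply Complex.ext
  · show max (-κ * ‖(0 : (ℝ × P) × V)‖) (max (slab₁ M R 0) (min (F 0).re (swq L r₀ 0))) = 0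
    rw [h1, h2, h3]; simp
  · show (l.comp (ContinuousLinearMap.snd ℝ (ℝ × P) V)) 0 + max (-max (swq L r₀ 0) 0)
      (min (max (swq L r₀ 0) 0) ((F 0).im - (l.comp (ContinuousLinearMap.snd ℝ (ℝ × P) V)) 0)) = 0
    rw [h1, h3]; simp

theorem swH_zero (hF : Hom1 F) : swH κ L r₀ M R l F σ ρ f ℓ 0 = 0 := by
  unfold swH
  split_ifs
  · exact swPhi_zero hF
  · apply Complex.ext
    · have := swA_smul (κ := κ) (M := M) (R := R) (σ := σ) (ρ := ρ) (f := f) (ℓ := ℓ) le_rfl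
        (0 : (ℝ × P) × V)
      simpa using this
    · show l (0 : V) = 0
      exact map_zero l

theorem swH_off (hκ : 0 < κ) {x : (ℝ × P) × V} (hxU : x ∉ swU (3 * r₀)) (hx : x ≠ 0) :
    swH κ L r₀ M R l F σ ρ f ℓ x = 0 ↔
      l x.2 = 0 ∧ max (slabσ M R σ x) (rayF ρ f ℓ x) = 0 := by
  have hn : 0 < ‖x‖ := norm_pos_iff.mpr hx
  have hneg : -κ * ‖x‖ < 0 := by nlinarith
  unfold swH
  rw [if_neg hxU]
  unfold swA
  constructor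
  · intro h0
    have h1 : max (-κ * ‖x‖) (max (slabσ M R σ x) (rayF ρ f ℓ x)) = 0 := congrArg Complex.re h0
    refine ⟨congrArg Complex.im h0, ?_⟩
    rcases max_choice (-κ * ‖x‖) (max (slabσ M R σ x) (rayF ρ f ℓ x)) with h2 | h2
    · rw [h1] at h2; linarith
    · rw [← h2, h1]
  · rintro ⟨h1, h2⟩
    apply Complex.ext
    · show max (-κ * ‖x‖) (max (slabσ M R σ x) (rayF ρ f ℓ x)) = 0
      rw [h2]; exact max_eq_right hneg.le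
    · exact h1

theorem swH_on {x : (ℝ × P) × V} (hxU : x ∈ swU (3 * r₀)) :
    swH κ L r₀ M R l F σ ρ f ℓ x = swPhi κ L r₀ M R l F x := by
  unfold swH
  rw [if_pos hxU]

/-- The sheets are isolated. -/
theorem swPhi_spec [FiniteDimensional ℝ P] [FiniteDimensional ℝ V] (hr₀ : 1 ≤ r₀) (hκ : 0 < κ)
    (hFc : Continuous F) (hFh : Hom1 F)
    (hFr : ∀ x ∈ swU (3 * r₀), x ≠ 0 → F x = 0 → RegAt (univ : Set Unit) (fun _ => F) () x)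
    (hF2 : ∀ x ∈ swU (3 * r₀), x ∉ swC r₀ → 0 ≤ (F x).re →
      ∀ᶠ y in 𝓝 x, F y = ⟨slab₁ M R y, l y.2⟩)
    (hF3 : ∀ x ∈ swU (3 * r₀), slab₁ M R x ≤ (F x).re) :
    ∃ L : ℝ, 3 * κ < L ∧
      (∀ x ∈ swU (3 * r₀), x ≠ 0 → (swPhi κ L r₀ M R l F x = 0 ↔ F x = 0)) ∧
      ∀ x ∈ swU (3 * r₀), x ≠ 0 → swPhi κ L r₀ M R l F x = 0 →
        RegAt (univ : Set Unit) (fun _ => swPhi κ L r₀ M R l F) () x := by
  set l' : ((ℝ × P) × V) →L[ℝ] ℝ := l.comp (ContinuousLinearMap.snd ℝ (ℝ × P) V) with hl'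
  obtain ⟨C, hC0, hC⟩ := Hom1.exists_bound hFc hFh
  set L : ℝ := C + ‖l'‖ + 3 * κ + 1 with hLdef
  have hL3 : 3 * κ < L := by
    have := norm_nonneg l'
    linarith
  have hL0 : 0 < L := by linarith
  have hΦ : ∀ x ∈ swU (3 * r₀), x ≠ 0 → (swPhi κ L r₀ M R l F x = 0 ↔ F x = 0) ∧
      (F x = 0 → ∀ᶠ y in 𝓝 x, F y = swPhi κ L r₀ M R l F y) := by
    intro x hxU hx
    by_cases hxC : x ∈ swC r₀
    · have hn : 0 < ‖x‖ := norm_pos_iff.mpr hx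
      refine sharp_big hκ hFc hx ?_ ?_
      · have h1 := swq_on hr₀ hL0 hxC
        have h2 : (C + ‖l'‖) * ‖x‖ < swq L r₀ x := by
          refine lt_of_lt_of_le ?_ h1
          exact mul_lt_mul_of_pos_right (by linarith) hn
        have c1 : Continuous fun y : (ℝ × P) × V => (C + ‖l'‖) * ‖y‖ := by fun_prop
        filter_upwards [c1.continuousAt.eventually_lt (continuous_swq L r₀).continuousAt h2]
          with y hy
        have h3 : |(F y).re| ≤ C * ‖y‖ := (Complex.abs_re_le_norm _).trans (hC y)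
        have h4 : |(F y).im| ≤ C * ‖y‖ := (Complex.abs_im_le_norm _).trans (hC y)
        have h5 : |l' y| ≤ ‖l'‖ * ‖y‖ := l'.le_opNorm y
        have h6 : 0 ≤ ‖l'‖ * ‖y‖ := by positivity
        constructor
        · have := (le_abs_self (F y).re).trans h3
          nlinarith
        · refine (abs_sub _ _).trans ?_
          nlinarith
      · filter_upwards [(isOpen_swU (3 * r₀)).mem_nhds hxU] with y hy
        exact hF3 y hy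
    · refine sharp_loc hκ hFc hx (fun h0 => ?_) (hF3 x hxU)
      filter_upwards [hF2 x hxU hxC h0] with y hy
      rw [hy]; rfl
  refine ⟨L, hL3, fun x hxU hx => (hΦ x hxU hx).1, fun x hxU hx h0 => ?_⟩
  obtain ⟨h1, h2⟩ := hΦ x hxU hx
  have h3 := h1.mp h0
  obtain ⟨U, hU, hUF⟩ := (h2 h3).exists_mem
  exact (hFr x hxU hx h3).congr ⟨U, hU, Eventually.of_forall fun _ y hy => hUF y hy⟩

/-! ### First phase: the opening of the ray opposite to the sheets shrinks -/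

theorem phaseA_ray (ρ : ℝ) (x : (ℝ × P) × V) :
    rayF ρ (-1, 0) (-ContinuousLinearMap.fst ℝ ℝ V) x = -ρ * x.1.1 - ‖x.2‖ := by
  have e1 : rayF ρ (-1, 0) (-ContinuousLinearMap.fst ℝ ℝ V) x =
      ρ * (-x.1.1) - ‖((x.1.1, x.2) : ℝ × V) - (-x.1.1) • ((-1, 0) : ℝ × V)‖ := rfl
  have h1 : ((x.1.1, x.2) : ℝ × V) - (-x.1.1) • ((-1, 0) : ℝ × V) = (0, x.2) := by
    refine Prod.ext ?_ ?_
    · show x.1.1 - (-x.1.1) * (-1) = 0
      ring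
    · show x.2 - (-x.1.1) • (0 : V) = x.2
      rw [smul_zero, sub_zero]
  have h2 : ‖((0, x.2) : ℝ × V)‖ = ‖x.2‖ := by
    show max ‖(0 : ℝ)‖ ‖x.2‖ = ‖x.2‖
    rw [norm_zero]; exact max_eq_right (norm_nonneg _)
  rw [e1, h1, h2]; ring

theorem phaseA_neg (hr₀ : 1 ≤ r₀) (hε : 0 < ε) (hεR : ε ≤ R) (hκ : κ * (6 * r₀) = ε) (τ : ℝ)
    (hτ : τ ∈ Icc (0 : ℝ) 1) (x : (ℝ × P) × V) (hx : x ∈ (swU (3 * r₀) : Set ((ℝ × P) × V))) :
    rayF ((1 - τ) * R + τ * ε) (-1, 0) (-ContinuousLinearMap.fst ℝ ℝ V) x ≤ -κ * ‖x‖ := by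
  have hu := swU_fst_pos (by linarith) hx
  have hn := norm_le_of_swU (by linarith) hx
  have hρ : ε ≤ (1 - τ) * R + τ * ε := by nlinarith [hτ.1, hτ.2]
  have hκ0 : 0 < κ := by
    by_contra hcon
    have : κ * (6 * r₀) ≤ 0 := mul_nonpos_of_nonpos_of_nonneg (not_lt.mp hcon) (by linarith)
    linarith
  rw [phaseA_ray]
  have h1 : -((1 - τ) * R + τ * ε) * x.1.1 ≤ -(ε * x.1.1) := by nlinarith
  have h2 : κ * ‖x‖ ≤ ε / 2 * x.1.1 := by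
    calc κ * ‖x‖ ≤ κ * (3 * r₀ * x.1.1) := mul_le_mul_of_nonneg_left hn hκ0.le
      _ = κ * (6 * r₀) / 2 * x.1.1 := by ring
      _ = _ := by rw [hκ]
  have h3 := norm_nonneg x.2
  have h4 : 0 < ε * x.1.1 := by positivity
  linarith

theorem phaseA_vertex (hM : 0 < M) {σ ρ : ℝ} (hρ : 0 < ρ) (x : (ℝ × P) × V) (hx : x ≠ 0)
    (hp : x.1.2 = 0) (h0 : 0 ≤ slabσ M R σ x) :
    0 < rayF ρ (-1, 0) (-ContinuousLinearMap.fst ℝ ℝ V) x := by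
  have h1 : 0 ≤ M * (‖x.1.2‖ - x.1.1) := h0.trans ((min_le_left _ _).trans (min_le_left _ _))
  have h2 : 0 ≤ R * ‖x.1.2‖ - ‖x.2‖ := h0.trans ((min_le_left _ _).trans (min_le_right _ _))
  rw [hp, norm_zero] at h1 h2
  have h3 : x.2 = 0 := norm_le_zero_iff.mp (by linarith)
  have h4 : x.1.1 ≤ 0 := by nlinarith
  have h5 : x.1.1 ≠ 0 := by
    intro h6
    exact hx (Prod.ext (Prod.ext h6 hp) h3)
  have h6 : x.1.1 < 0 := lt_of_le_of_ne h4 h5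
  rw [phaseA_ray, h3, norm_zero]
  nlinarith

theorem phaseA (hr₀ : 1 ≤ r₀) (hL : 3 * κ < L) {h : V} (hl : l h = 1) (hFc : Continuous F)
    (hFh : Hom1 F) (hΦr : ∀ x ∈ swU (3 * r₀), x ≠ 0 → swPhi κ L r₀ M R l F x = 0 →
        RegAt (univ : Set Unit) (fun _ => swPhi κ L r₀ M R l F) () x)
    (hκ : 0 < κ) (hM : 0 < M) (hε : 0 < ε) (hεR : ε ≤ R) (hκ6 : κ * (6 * r₀) = ε) :
    RFam (Icc (0 : ℝ) 1) (fun τ => swH κ L r₀ M R l F τ ((1 - τ) * R + τ * ε) ((-1, 0) : ℝ × V)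
      (-ContinuousLinearMap.fst ℝ ℝ V)) := by
  have hρ : ∀ τ ∈ Icc (0 : ℝ) 1, 0 < (1 - τ) * R + τ * ε := fun τ hτ => by
    have : ε ≤ (1 - τ) * R + τ * ε := by nlinarith [hτ.1, hτ.2]
    linarith
  refine swing_phase (s := Icc (0 : ℝ) 1) (σ := fun τ => τ)
    (ρ := fun τ => (1 - τ) * R + τ * ε) (f := fun _ => ((-1, 0) : ℝ × V))
    (ℓ := fun _ => -ContinuousLinearMap.fst ℝ ℝ V) hr₀ hL hl hFc hFh hΦr continuousOn_id
    (fun τ hτ => hτ.1) (fun τ hτ => ?_) ?_ continuousOn_const continuousOn_const hρ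
    (fun τ _ => ?_) hκ hM (hε.trans_le hεR) (fun τ _ => ?_)
    (fun τ hτ x hx hp h0 => phaseA_vertex hM (hρ τ hτ) x hx hp h0)
    (fun τ hτ x hx => phaseA_neg hr₀ hε hεR hκ6 τ hτ x hx)
  · rw [abs_of_nonneg hτ.1]; exact hτ.2
  · have : Continuous fun τ : ℝ => (1 - τ) * R + τ * ε := by fun_prop
    exact this.continuousOn
  · show -(-1 : ℝ) = 1
    norm_num
  · show l 0 = 0
    exact map_zero l

/-! ### Second phase: rotation of the ray -/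

/-- Direction of the ray. -/
def swf (b₀ : V) (τ : ℝ) : ℝ × V := (2 * τ - 1, τ • b₀)

/-- Denominator. -/
def swD (τ : ℝ) : ℝ := (2 * τ - 1) ^ 2 + τ ^ 2 * (1 - τ)

/-- Coordinate along the ray. -/
noncomputable def swℓ (ψ : V →L[ℝ] ℝ) (τ : ℝ) : ℝ × V →L[ℝ] ℝ :=
  (swD τ)⁻¹ • ((2 * τ - 1) • ContinuousLinearMap.fst ℝ ℝ V +
    (τ * (1 - τ)) • ψ.comp (ContinuousLinearMap.snd ℝ ℝ V))

theorem swℓ_apply (ψ : V →L[ℝ] ℝ) (τ : ℝ) (w : ℝ × V) :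
    swℓ ψ τ w = (swD τ)⁻¹ * ((2 * τ - 1) * w.1 + τ * (1 - τ) * ψ w.2) := rfl

theorem swD_pos {τ : ℝ} (hτ : τ ∈ Icc (0 : ℝ) 1) : 0 < swD τ := by
  unfold swD
  by_cases h2 : τ = 1 / 2
  · rw [h2]; norm_num
  · have h3 : 0 < (2 * τ - 1) ^ 2 := by
      have : 2 * τ - 1 ≠ 0 := fun h4 => h2 (by linarith)
      positivity
    have h4 : 0 ≤ τ ^ 2 * (1 - τ) := mul_nonneg (sq_nonneg _) (by linarith [hτ.2])
    linarith

theorem continuousOn_swℓ (ψ : V →L[ℝ] ℝ) : ContinuousOn (swℓ ψ) (Icc (0 : ℝ) 1) := by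
  have h0 : Continuous swD := by unfold swD; fun_prop
  have h1 : ContinuousOn (fun τ => (swD τ)⁻¹) (Icc (0 : ℝ) 1) :=
    h0.continuousOn.inv₀ fun τ hτ => (swD_pos hτ).ne'
  have h2 : Continuous fun τ : ℝ => (2 * τ - 1) • ContinuousLinearMap.fst ℝ ℝ V +
    (τ * (1 - τ)) • ψ.comp (ContinuousLinearMap.snd ℝ ℝ V) := by fun_prop
  exact h1.smul h2.continuousOn

theorem swℓ_swf {ψ : V →L[ℝ] ℝ} {b₀ : V} (hψ : ψ b₀ = 1) {τ : ℝ} (hτ : τ ∈ Icc (0 : ℝ) 1) :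
    swℓ ψ τ (swf b₀ τ) = 1 := by
  rw [swℓ_apply]
  show (swD τ)⁻¹ * ((2 * τ - 1) * (2 * τ - 1) + τ * (1 - τ) * ψ (τ • b₀)) = 1
  rw [map_smul, hψ, smul_eq_mul, mul_one]
  have h3 : (2 * τ - 1) * (2 * τ - 1) + τ * (1 - τ) * τ = swD τ := by unfold swD; ring
  rw [h3]
  exact inv_mul_cancel₀ (swD_pos hτ).ne'

theorem phaseB_neg (hr₀ : 1 ≤ r₀) (hε : 0 < ε) (hε4 : ε ≤ 1 / 4) (hκ : 0 < κ)
    (hκ6 : κ * (6 * r₀) = ε) {b₀ : V} (hbr : 6 * r₀ ≤ ‖b₀‖) (ψ : V →L[ℝ] ℝ) (τ : ℝ)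
    (hτ : τ ∈ Icc (0 : ℝ) 1) (x : (ℝ × P) × V) (hx : x ∈ (swU (3 * r₀) : Set ((ℝ × P) × V))) :
    rayF ε (swf b₀ τ) (swℓ ψ τ) x ≤ -κ * ‖x‖ := by
  have hu := swU_fst_pos (by linarith) hx
  have hn := norm_le_of_swU (by linarith) hx
  have h1 : rayF ε (swf b₀ τ) (swℓ ψ τ) x ≤ -(ε / 2) * x.1.1 := by
    refine rayF_neg (r := 3 * r₀) (by linarith) hε ?_ ?_ ?_ hu.le hx.2.le
    · nlinarith
    · show |2 * τ - 1| ≤ 1
      rw [abs_le]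
      constructor <;> linarith [hτ.1, hτ.2]
    · show 3 * r₀ * (1 + (2 * τ - 1)) ≤ ‖τ • b₀‖
      rw [norm_smul, Real.norm_eq_abs, abs_of_nonneg hτ.1]
      nlinarith [hτ.1]
  refine h1.trans ?_
  have h2 : κ * ‖x‖ ≤ ε / 2 * x.1.1 := by
    calc κ * ‖x‖ ≤ κ * (3 * r₀ * x.1.1) := mul_le_mul_of_nonneg_left hn hκ.le
      _ = κ * (6 * r₀) / 2 * x.1.1 := by ring
      _ = _ := by rw [hκ6]
  linarith

theorem phaseB_vertex (hM : 0 < M) (x : (ℝ × P) × V) (hx : x ≠ 0)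
    (hp : x.1.2 = 0) : ¬ 0 ≤ slabσ M R 1 x := by
  intro h0
  have h1 : 0 ≤ M * (‖x.1.2‖ - x.1.1) := h0.trans ((min_le_left _ _).trans (min_le_left _ _))
  have h2 : 0 ≤ R * ‖x.1.2‖ - ‖x.2‖ := h0.trans ((min_le_left _ _).trans (min_le_right _ _))
  have h3 : 0 ≤ M * (‖x.1.2‖ + 1 * x.1.1) := h0.trans (min_le_right _ _)
  rw [hp, norm_zero] at h1 h2 h3
  have h4 : x.2 = 0 := norm_le_zero_iff.mp (by linarith)
  have h5 : x.1.1 ≤ 0 := by nlinarith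
  have h6 : 0 ≤ x.1.1 := by nlinarith
  exact hx (Prod.ext (Prod.ext (le_antisymm h5 h6) hp) h4)

theorem phaseB (hr₀ : 1 ≤ r₀) (hL : 3 * κ < L) {h : V} (hl : l h = 1) (hFc : Continuous F)
    (hFh : Hom1 F) (hΦr : ∀ x ∈ swU (3 * r₀), x ≠ 0 → swPhi κ L r₀ M R l F x = 0 →
        RegAt (univ : Set Unit) (fun _ => swPhi κ L r₀ M R l F) () x)
    (hκ : 0 < κ) (hM : 0 < M) (hR : 0 < R) (hε : 0 < ε) (hε4 : ε ≤ 1 / 4)
    (hκ6 : κ * (6 * r₀) = ε) {b₀ : V} (hb₀ : l b₀ = 0) (hbr : 6 * r₀ ≤ ‖b₀‖)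
    {ψ : V →L[ℝ] ℝ} (hψ : ψ b₀ = 1) :
    RFam (Icc (0 : ℝ) 1) (fun τ => swH κ L r₀ M R l F 1 ε (swf b₀ τ) (swℓ ψ τ)) := by
  refine swing_phase (s := Icc (0 : ℝ) 1) (σ := fun _ => (1 : ℝ))
    (ρ := fun _ => ε) (f := swf b₀) (ℓ := swℓ ψ) hr₀ hL hl hFc hFh hΦr continuousOn_const
    (fun _ _ => zero_le_one) (fun _ _ => by rw [abs_one]) continuousOn_const ?_
    (continuousOn_swℓ ψ) (fun _ _ => hε) (fun τ hτ => swℓ_swf hψ hτ) hκ hM hR (fun τ _ => ?_)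
    (fun τ _ x hx hp h0 => absurd h0 (phaseB_vertex hM x hx hp))
    (fun τ hτ x hx => phaseB_neg hr₀ hε hε4 hκ hκ6 hbr ψ τ hτ x hx)
  · have : Continuous (swf b₀) := by unfold swf; fun_prop
    exact this.continuousOn
  · show l (τ • b₀) = 0
    rw [map_smul, hb₀, smul_zero]

theorem swf_zero (b₀ : V) : swf b₀ 0 = (-1, 0) := by
  unfold swf
  rw [zero_smul]; norm_num

theorem swℓ_zero (ψ : V →L[ℝ] ℝ) : swℓ ψ 0 = -ContinuousLinearMap.fst ℝ ℝ V := by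
  refine ContinuousLinearMap.ext fun w => ?_
  rw [swℓ_apply]
  show _ = -w.1
  unfold swD; norm_num

theorem phaseB_ray (ρ : ℝ) (ψ : V →L[ℝ] ℝ) (b₀ : V) (x : (ℝ × P) × V) :
    rayF ρ (swf b₀ 1) (swℓ ψ 1) x = ρ * x.1.1 - ‖x.2 - x.1.1 • b₀‖ := by
  have hℓ1 : swℓ ψ 1 ((x.1.1, x.2) : ℝ × V) = x.1.1 := by
    rw [swℓ_apply]; unfold swD; norm_num
  unfold rayF
  rw [hℓ1]
  have h1 : ((x.1.1, x.2) : ℝ × V) - x.1.1 • swf b₀ 1 = (0, x.2 - x.1.1 • b₀) := by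
    refine Prod.ext ?_ ?_
    · show x.1.1 - x.1.1 * (2 * 1 - 1) = 0
      ring
    · show x.2 - x.1.1 • ((1 : ℝ) • b₀) = x.2 - x.1.1 • b₀
      rw [one_smul]
  have h2 : ‖((0, x.2 - x.1.1 • b₀) : ℝ × V)‖ = ‖x.2 - x.1.1 • b₀‖ := by
    show max ‖(0 : ℝ)‖ ‖x.2 - x.1.1 • b₀‖ = _
    rw [norm_zero]; exact max_eq_right (norm_nonneg _)
  rw [h1, h2]

end

/-- **The swing**, abstract form. -/
theorem swing_core {P V : Type} [NormedAddCommGroup P] [NormedSpace ℝ P] [FiniteDimensional ℝ P]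
    [NormedAddCommGroup V] [NormedSpace ℝ V] [FiniteDimensional ℝ V]
    {l : V →L[ℝ] ℝ} {h : V} (hl : l h = 1) {b₀ : V} (hb₀ : l b₀ = 0) {ψ : V →L[ℝ] ℝ}
    (hψ : ψ b₀ = 1) {r₀ ε R M : ℝ} (hr₀ : 1 ≤ r₀) (hbr : 6 * r₀ ≤ ‖b₀‖) (hε : 0 < ε)
    (hε4 : ε ≤ 1 / 4) (hεR : ε ≤ R) (hRM : R ≤ M) {F G : (ℝ × P) × V → ℂ}
    (hFc : Continuous F) (hFh : Hom1 F)
    (hFr : ∀ x ∈ swU (3 * r₀), x ≠ 0 → F x = 0 → RegAt (univ : Set Unit) (fun _ => F) () x)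
    (hF2 : ∀ x ∈ swU (3 * r₀), x ∉ swC r₀ → 0 ≤ (F x).re →
      ∀ᶠ y in 𝓝 x, F y = ⟨slab₁ M R y, l y.2⟩)
    (hF3 : ∀ x ∈ swU (3 * r₀), slab₁ M R x ≤ (F x).re)
    (hF4 : ∀ x ∉ swU (3 * r₀), x ≠ 0 →
      (F x = 0 ↔ l x.2 = 0 ∧ max (slab₁ M R x) (-R * x.1.1 - ‖x.2‖) = 0))
    (hG0 : G 0 = 0) (hG1 : ∀ x ∈ swU (3 * r₀), (G x = 0 ↔ F x = 0))
    (hG2 : ∀ x ∉ swU (3 * r₀), x ≠ 0 →
      (G x = 0 ↔ l x.2 = 0 ∧ max (min (slab₁ M R x) (M * (‖x.1.2‖ + x.1.1)))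
        (ε * x.1.1 - ‖x.2 - x.1.1 • b₀‖) = 0)) : VEq F G := by
  have hR : 0 < R := hε.trans_le hεR
  have hM : 0 < M := hR.trans_le hRM
  have hE : ProperSpace ((ℝ × P) × V) := FiniteDimensional.proper ℝ _
  obtain ⟨κ, hκ, hκ6⟩ : ∃ κ : ℝ, 0 < κ ∧ κ * (6 * r₀) = ε :=
    ⟨ε / (6 * r₀), by positivity, by field_simp⟩
  obtain ⟨L, hL3, hΦ, hΦr⟩ := swPhi_spec hr₀ hκ hFc hFh hFr hF2 hF3
  have hVA := (phaseA hr₀ hL3 hl hFc hFh hΦr hκ hM hε hεR hκ6).veq isPreconnected_Icc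
    (left_mem_Icc.mpr zero_le_one) (right_mem_Icc.mpr zero_le_one)
  have hVB := (phaseB hr₀ hL3 hl hFc hFh hΦr hκ hM hR hε hε4 hκ6 hb₀ hbr hψ).veq
    isPreconnected_Icc (left_mem_Icc.mpr zero_le_one) (right_mem_Icc.mpr zero_le_one)
  rw [swf_zero, swℓ_zero] at hVB
  have e1 : (1 - 1) * R + 1 * ε = ε := by ring
  have e0 : (1 - 0) * R + 0 * ε = R := by ring
  rw [e1, e0] at hVA
  refine (VEq.of_iff fun x => ?_).trans ((hVA.trans hVB).trans (VEq.of_iff fun x => ?_))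
  · -- start
    by_cases hx : x = 0
    · rw [hx, hFh.zero, swH_zero hFh]
    · by_cases hxU : x ∈ swU (3 * r₀)
      · rw [swH_on hxU]
        exact (hΦ x hxU hx).symm
      · rw [swH_off hκ hxU hx, hF4 x hxU hx, phaseA_ray]
        have e2 : slabσ M R 0 x = slab₁ M R x := by
          show min (slab₁ M R x) (M * (‖x.1.2‖ + 0 * x.1.1)) = slab₁ M R x
          refine min_eq_left ((min_le_right _ _).trans ?_)
          have h1 : R * ‖x.1.2‖ ≤ M * ‖x.1.2‖ := mul_le_mul_of_nonneg_right hRM (norm_nonneg _)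
          have h2 := norm_nonneg x.2
          linarith
        rw [e2]
  · -- end
    by_cases hx : x = 0
    · rw [hx, hG0, swH_zero hFh]
    · by_cases hxU : x ∈ swU (3 * r₀)
      · rw [swH_on hxU]
        exact (hΦ x hxU hx).trans (hG1 x hxU).symm
      · rw [swH_off hκ hxU hx, hG2 x hxU hx, phaseB_ray]
        have e2 : slabσ M R 1 x = min (slab₁ M R x) (M * (‖x.1.2‖ + x.1.1)) := by
          show min (slab₁ M R x) (M * (‖x.1.2‖ + 1 * x.1.1)) = _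
          rw [one_mul]
        rw [e2]

end Vale.Agent.P268.T
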