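import Vale.Agent.P268.T.H863.Fam

/-!
# P268, topological half, block B4b: the swing

`swing_core`: outside an open cone around the sheets the function `F` is the slab over the half
space; the part of the slab over the opposite disc is shrunk to a thin ray, the ray is rotated
to the far sheet.  The sheets are not touched.
-/

set_option linter.unusedSectionVars false

namespace Vale.Agent.P268.T

open Set Filter Topology

section

variable {P V : Type*} [NormedAddCommGroup P] [NormedSpace ℝ P]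
  [NormedAddCommGroup V] [NormedSpace ℝ V]

theorem norm_swE (x : (ℝ × P) × V) : ‖x‖ = max (max |x.1.1| ‖x.1.2‖) ‖x.2‖ := rfl

theorem isOpen_swU (r : ℝ) : IsOpen (swU r : Set ((ℝ × P) × V)) := by
  have h1 : Continuous fun x : (ℝ × P) × V => ‖x.1.2‖ := by fun_prop
  have h2 : Continuous fun x : (ℝ × P) × V => ‖x.2‖ := by fun_prop
  have h3 : Continuous fun x : (ℝ × P) × V => r * x.1.1 := by fun_prop
  exact (isOpen_lt h1 h3).inter (isOpen_lt h2 h3)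

theorem swU_smul {r : ℝ} {x : (ℝ × P) × V} (hx : x ∈ swU r) {k : ℝ} (hk : 0 < k) :
    k • x ∈ swU r := by
  obtain ⟨h1, h2⟩ := hx
  constructor
  · show ‖k • x.1.2‖ < r * (k * x.1.1)
    rw [norm_smul, Real.norm_eq_abs, abs_of_pos hk]
    nlinarith
  · show ‖k • x.2‖ < r * (k * x.1.1)
    rw [norm_smul, Real.norm_eq_abs, abs_of_pos hk]
    nlinarith

theorem swU_fst_pos {r : ℝ} (hr : 0 < r) {x : (ℝ × P) × V} (hx : x ∈ swU r) : 0 < x.1.1 := by
  have h1 : 0 < r * x.1.1 := (norm_nonneg _).trans_lt hx.1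
  exact pos_of_mul_pos_right h1 hr.le

theorem norm_le_of_swU {r : ℝ} (hr : 1 ≤ r) {x : (ℝ × P) × V} (hx : x ∈ swU r) :
    ‖x‖ ≤ r * x.1.1 := by
  have h0 := swU_fst_pos (by linarith) hx
  rw [norm_swE, abs_of_pos h0]
  refine max_le (max_le ?_ hx.1.le) hx.2.le
  nlinarith

/-- The ray stays away from the cone. -/
theorem rayF_neg {r ε : ℝ} (hr : 0 < r) (hε : 0 < ε) (hε2 : 2 * ε * (r + 1) ≤ r) {g : ℝ × V}
    (h1 : |g.1| ≤ 1) (h2 : r * (1 + g.1) ≤ ‖g.2‖) {u y : ℝ} {v : V} (hu : 0 ≤ u)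
    (hv : ‖v‖ ≤ r * u) : ε * y - ‖((u, v) : ℝ × V) - y • g‖ ≤ -(ε / 2) * u := by
  set z : ℝ × V := ((u, v) : ℝ × V) - y • g with hz
  have e1 : |u - y * g.1| ≤ ‖z‖ := norm_fst_le z
  have e2 : ‖v - y • g.2‖ ≤ ‖z‖ := norm_snd_le z
  have hε1 : ε ≤ 1 / 2 := by
    by_contra hcon
    have hcon := not_le.mp hcon
    nlinarith
  rcases le_total 0 y with hy | hy
  · have i1 : y * ‖g.2‖ ≤ ‖v‖ + ‖z‖ := by
      have : ‖y • g.2‖ = y * ‖g.2‖ := by rw [norm_smul, Real.norm_eq_abs, abs_of_nonneg hy]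
      rw [← this]
      calc ‖y • g.2‖ = ‖v - (v - y • g.2)‖ := by rw [sub_sub_cancel]
        _ ≤ ‖v‖ + ‖v - y • g.2‖ := norm_sub_le _ _
        _ ≤ _ := by linarith
    have i2 : u ≤ y * g.1 + ‖z‖ := by
      have := (abs_le.mp e1).2
      linarith
    have i3 : y * (r * (1 + g.1)) ≤ r * u + ‖z‖ := by
      have := mul_le_mul_of_nonneg_left h2 hy
      linarith
    have i4 : y * r ≤ (r + 1) * ‖z‖ := by nlinarith
    have i5 : 2 * ε * y ≤ ‖z‖ := by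
      have h3 : 2 * ε * (y * r) ≤ r * ‖z‖ := by
        calc 2 * ε * (y * r) ≤ 2 * ε * ((r + 1) * ‖z‖) :=
              mul_le_mul_of_nonneg_left i4 (by positivity)
          _ = 2 * ε * (r + 1) * ‖z‖ := by ring
          _ ≤ r * ‖z‖ := mul_le_mul_of_nonneg_right hε2 (norm_nonneg _)
      nlinarith
    have i6 : u ≤ y + ‖z‖ := by
      have : y * g.1 ≤ y * 1 := mul_le_mul_of_nonneg_left (abs_le.mp h1).2 hy
      linarith
    have i7 : 2 * ε * u ≤ 2 * ‖z‖ := by nlinarith [norm_nonneg z]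
    nlinarith
  · rcases le_total (u / 2) (-y) with hy2 | hy2
    · nlinarith [norm_nonneg z]
    · have i1 : u - -y ≤ ‖z‖ := by
        have h3 := (abs_le.mp e1).2
        have h4 : y * g.1 ≤ -y := by
          have := (abs_le.mp h1).1
          nlinarith
        linarith
      nlinarith

/-- The set `V` of the gluing. -/
theorem isOpen_swV {q : (ℝ × P) × V → ℝ} (hq : Continuous q) (κ : ℝ) :
    IsOpen {x : (ℝ × P) × V | q x < -κ * ‖x‖} :=
  isOpen_lt hq (by fun_prop)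

/-- The function separating the sheets. -/
noncomputable def swq (L r₀ : ℝ) (x : (ℝ × P) × V) : ℝ :=
  L * (2 * r₀ * x.1.1 - max ‖x.1.2‖ ‖x.2‖)

theorem continuous_swq (L r₀ : ℝ) : Continuous (swq L r₀ : (ℝ × P) × V → ℝ) := by
  unfold swq; fun_prop

theorem swq_smul (L r₀ : ℝ) (k : ℝ) (hk : 0 ≤ k) (x : (ℝ × P) × V) :
    swq L r₀ (k • x) = k * swq L r₀ x := by
  have e4 : ‖(k • x).1.2‖ = k * ‖x.1.2‖ := by
    show ‖k • x.1.2‖ = _
    rw [norm_smul, Real.norm_eq_abs, abs_of_nonneg hk]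
  have e5 : ‖(k • x).2‖ = k * ‖x.2‖ := by
    show ‖k • x.2‖ = _
    rw [norm_smul, Real.norm_eq_abs, abs_of_nonneg hk]
  have e6 : (k • x).1.1 = k * x.1.1 := rfl
  unfold swq
  rw [e4, e5, e6, ← mul_max_of_nonneg _ _ hk]
  ring

theorem swq_off {L r₀ κ : ℝ} (hr₀ : 1 ≤ r₀) (hκ : 0 ≤ κ) (hL : 3 * κ < L) {x : (ℝ × P) × V}
    (hx : x ≠ 0) (hxU : x ∉ swU (3 * r₀)) : swq L r₀ x < -κ * ‖x‖ := by
  have hn : 0 < ‖x‖ := norm_pos_iff.mpr hx
  set m : ℝ := max ‖x.1.2‖ ‖x.2‖ with hm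
  have hm0 : 0 ≤ m := (norm_nonneg _).trans (le_max_left _ _)
  have hmx : ‖x‖ ≤ max |x.1.1| m := by
    rw [norm_swE, max_assoc]
  have h1 : 3 * r₀ * x.1.1 ≤ m := by
    by_contra hcon
    have hcon := not_le.mp hcon
    exact hxU ⟨(le_max_left _ _).trans_lt hcon, (le_max_right _ _).trans_lt hcon⟩
  have hL0 : 0 < L := by linarith
  show L * (2 * r₀ * x.1.1 - m) < -κ * ‖x‖
  rcases le_total x.1.1 0 with hu | hu
  · have h2 : ‖x‖ ≤ m - x.1.1 := by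
      refine hmx.trans (max_le ?_ ?_)
      · rw [abs_of_nonpos hu]; linarith
      · linarith
    have h3 : 2 * r₀ * x.1.1 - m ≤ -‖x‖ := by nlinarith
    have h4 : L * (2 * r₀ * x.1.1 - m) ≤ L * -‖x‖ := mul_le_mul_of_nonneg_left h3 hL0.le
    nlinarith
  · have h2 : x.1.1 ≤ m := by nlinarith
    have h3 : ‖x‖ ≤ m := by
      refine hmx.trans (max_le ?_ le_rfl)
      rw [abs_of_nonneg hu]; exact h2
    have h4 : 2 * r₀ * x.1.1 - m ≤ -(m / 3) := by linarith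
    have h5 : L * (2 * r₀ * x.1.1 - m) ≤ L * -(m / 3) := mul_le_mul_of_nonneg_left h4 hL0.le
    nlinarith

theorem swq_on {L r₀ : ℝ} (hr₀ : 1 ≤ r₀) (hL : 0 < L) {x : (ℝ × P) × V}
    (hxC : x ∈ swC r₀) : L * ‖x‖ ≤ swq L r₀ x := by
  obtain ⟨h1, h2⟩ := hxC
  have h3 : max ‖x.1.2‖ ‖x.2‖ ≤ r₀ * x.1.1 := max_le h1 h2
  have h0 : 0 ≤ x.1.1 := by
    have : 0 ≤ r₀ * x.1.1 := (norm_nonneg _).trans h1
    exact nonneg_of_mul_nonneg_right this (by linarith)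
  have h4 : ‖x‖ ≤ r₀ * x.1.1 := by
    rw [norm_swE, max_assoc, abs_of_nonneg h0]
    exact max_le (by nlinarith) h3
  show L * ‖x‖ ≤ L * (2 * r₀ * x.1.1 - max ‖x.1.2‖ ‖x.2‖)
  exact mul_le_mul_of_nonneg_left (by linarith) hL.le

end

section

variable {P V : Type*} [NormedAddCommGroup P] [NormedSpace ℝ P]
  [NormedAddCommGroup V] [NormedSpace ℝ V]
  {T : Type*} [TopologicalSpace T] {s : Set T} {σ ρ : T → ℝ} {f : T → ℝ × V}
  {ℓ : T → (ℝ × V →L[ℝ] ℝ)} {κ M R r₀ L : ℝ}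

open Classical in
/-- One phase of the swing. -/
theorem swing_phase (hr₀ : 1 ≤ r₀) (hL : 3 * κ < L) {l : V →L[ℝ] ℝ} {h : V} (hl : l h = 1)
    {F : (ℝ × P) × V → ℂ} (hFc : Continuous F) (hFh : Hom1 F)
    (hΦr : ∀ x ∈ swU (3 * r₀), x ≠ 0 →
      sharp κ (swq L r₀) (slab₁ M R) (l.comp (ContinuousLinearMap.snd ℝ (ℝ × P) V)) F x = 0 →
      RegAt (univ : Set Unit) (fun _ => sharp κ (swq L r₀) (slab₁ M R)
        (l.comp (ContinuousLinearMap.snd ℝ (ℝ × P) V)) F) () x)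
    (hσ : ContinuousOn σ s) (hσ0 : ∀ τ ∈ s, 0 ≤ σ τ) (hσ1 : ∀ τ ∈ s, |σ τ| ≤ 1)
    (hρ : ContinuousOn ρ s)
    (hf : ContinuousOn f s) (hℓ : ContinuousOn ℓ s) (hρ0 : ∀ τ ∈ s, 0 < ρ τ)
    (hℓf : ∀ τ ∈ s, ℓ τ (f τ) = 1) (hκ : 0 < κ) (hM : 0 < M) (hR : 0 < R)
    (hlf : ∀ τ ∈ s, l (f τ).2 = 0)
    (hp : ∀ τ ∈ s, ∀ x : (ℝ × P) × V, x ≠ 0 → x.1.2 = 0 → 0 ≤ slabσ M R (σ τ) x →
      0 < rayF (ρ τ) (f τ) (ℓ τ) x)
    (hneg : ∀ τ ∈ s, ∀ x ∈ (swU (3 * r₀) : Set ((ℝ × P) × V)),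
      rayF (ρ τ) (f τ) (ℓ τ) x ≤ -κ * ‖x‖) :
    RFam s (fun τ (x : (ℝ × P) × V) => if x ∈ swU (3 * r₀) then
      sharp κ (swq L r₀) (slab₁ M R) (l.comp (ContinuousLinearMap.snd ℝ (ℝ × P) V)) F x
      else ⟨swA κ M R (σ τ) (ρ τ) (f τ) (ℓ τ) x, l x.2⟩) := by
  have hB : Continuous (slab₁ M R : (ℝ × P) × V → ℝ) := by unfold slab₁; fun_prop
  have hBh : ∀ k : ℝ, 0 ≤ k → ∀ x : (ℝ × P) × V, slab₁ M R (k • x) = k * slab₁ M R x := by
    intro k hk x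
    have e4 : ‖(k • x).1.2‖ = k * ‖x.1.2‖ := by
      show ‖k • x.1.2‖ = _
      rw [norm_smul, Real.norm_eq_abs, abs_of_nonneg hk]
    have e5 : ‖(k • x).2‖ = k * ‖x.2‖ := by
      show ‖k • x.2‖ = _
      rw [norm_smul, Real.norm_eq_abs, abs_of_nonneg hk]
    have e6 : (k • x).1.1 = k * x.1.1 := rfl
    unfold slab₁
    rw [e4, e5, e6, mul_min_of_nonneg _ _ hk]
    congr 1 <;> ring
  refine RFam.glue_open (isOpen_swU _) (isOpen_swV (continuous_swq L r₀) κ) (fun x hx => ?_)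
    (fun x hx k hk => swU_smul hx hk) (continuous_sharp hFc (continuous_swq L r₀) hB)
    (hom1_sharp hFh (fun k hk x => swq_smul L r₀ k hk x) hBh) hΦr ?_ ?_ ?_ ?_
  · by_cases hxU : x ∈ swU (3 * r₀)
    · exact Or.inl hxU
    · exact Or.inr (swq_off hr₀ hκ.le hL hx hxU)
  · have hl2 : Continuous fun q : T × ((ℝ × P) × V) => l q.2.2 := by fun_prop
    exact continuousOn_mk (continuousOn_swA hσ hρ hf hℓ) hl2.continuousOn
  · intro τ _ k hk x
    apply Complex.ext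
    · rw [Complex.smul_re, smul_eq_mul]
      exact swA_smul hk x
    · rw [Complex.smul_im, smul_eq_mul]
      show l (k • x.2) = k * l x.2
      rw [map_smul, smul_eq_mul]
  · intro τ hτ x hx _ h0
    exact regAt_swA hσ hσ1 hρ hf hℓ hρ0 hℓf hκ hM hR hl hlf hp hτ hx (congrArg Complex.re h0)
  · intro τ hτ x hxU hxV
    rw [sharp_of_neg hκ.le (le_of_lt hxV)]
    have hu : 0 < x.1.1 := swU_fst_pos (by linarith) hxU
    have h1 : slabσ M R (σ τ) x = slab₁ M R x := by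
      refine min_eq_left ?_
      refine (min_le_left _ _).trans ?_
      refine mul_le_mul_of_nonneg_left ?_ hM.le
      have := mul_nonneg (hσ0 τ hτ) hu.le
      linarith
    have h2 : swA κ M R (σ τ) (ρ τ) (f τ) (ℓ τ) x = max (-κ * ‖x‖) (slab₁ M R x) := by
      unfold swA
      rw [h1, ← max_assoc]
      exact max_eq_left ((hneg τ hτ x hxU).trans (le_max_left _ _))
    rw [h2]
    rfl

end

end Vale.Agent.P268.T
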