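import Vale.Agent.P268.T.H863.Swing
import Vale.Agent.P268.T.H655.Ends3
import Vale.Agent.P268.T.DeltaR

/-!
# P268, topological half, block B4b: the swing `K_A → N(b)`
-/

set_option linter.unusedSectionVars false

namespace Vale.Agent.P268.T

open Set Filter Topology Metric

/-- **The swing**: the half space form with sheets `b` is equivalent to the normal form with one
more sheet, constant and far away. -/
theorem swing {P V A : Type} [NormedAddCommGroup P] [NormedSpace ℝ P] [FiniteDimensional ℝ P]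
    [NormedAddCommGroup V] [InnerProductSpace ℝ V] [FiniteDimensional ℝ V] [Fintype A] {e : V}
    (he : ‖e‖ = 1) {b ν : A → P → V} (hb : BData e b ν) {b₀ : V} (h0 : inner ℝ b₀ e = 0)
    {r₀ ε R M : ℝ} (hr₀ : 2 ≤ r₀)
    (hB : ∀ a, ∀ x ∈ closedBall (0 : P) 1, 2 * (‖b a x‖ + ε) ≤ r₀) (hb₀ : 6 * r₀ ≤ ‖b₀‖)
    (hε : ε ≤ 1 / 4) (hadm : Adm ε R M (farB b₀ b)) :
    VEq (KA e ε R M b ν) (NN e ε R M (farB b₀ b) (farN e ν)) := by
  have hE : EndH e b₀ ε R M r₀ b ν :=
    { he := he, hd := hb, h0 := h0, hr := hr₀, hB := hB, h2e := by linarith, hb0 := hb₀,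
      ad := hadm }
  have hb0 : b₀ ≠ 0 := by
    intro h
    rw [h, norm_zero] at hb₀
    linarith
  have hn : 0 < ‖b₀‖ := norm_pos_iff.mpr hb0
  have hswap : ∀ v : V, innerSL ℝ e v = inner ℝ v e := fun v => by
    rw [innerSL_apply_apply, real_inner_comm]
  have hU : ∀ x ∈ (swU (3 * r₀) : Set ((ℝ × P) × V)), x ≠ 0 → KA e ε R M b ν x = 0 →
      RegAt (univ : Set Unit) (fun _ => KA e ε R M b ν) () x := by
    intro x hx hx0 hz
    have h1 : NN e ε R M b ν x = 0 := by rw [← hE.F_eq_NN hx]; exact hz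
    refine ((NN_rfam hb he hE.ad').reg () (mem_univ _) x hx0 h1).congr
      ⟨swU (3 * r₀), (isOpen_swU _).mem_nhds hx, Eventually.of_forall fun _ y hy => ?_⟩
    exact (hE.F_eq_NN hy).symm
  refine swing_core (l := innerSL ℝ e) (h := e) (b₀ := b₀)
    (ψ := (‖b₀‖ ^ 2)⁻¹ • innerSL ℝ b₀) ?_ ?_ ?_ (by linarith) hb₀ hadm.hε hε hadm.hR ?_
    hE.F_cont hE.F_hom hU ?_ (fun x _ => hE.F_ge x) ?_ ?_ (fun x hx => hE.G_zero_on hx) ?_
  · rw [innerSL_apply_apply, real_inner_self_eq_norm_sq, he, one_pow]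
  · rw [hswap]; exact h0
  · show (‖b₀‖ ^ 2)⁻¹ * inner ℝ b₀ b₀ = 1
    rw [real_inner_self_eq_norm_sq]
    exact inv_mul_cancel₀ (by positivity)
  · have := hE.hMR
    have := hE.hR0
    linarith
  · intro x hx hxC h1
    filter_upwards [hE.F_near hx hxC h1] with y hy
    rw [hy, hswap]
  · intro x hx hx0
    rw [hE.F_zero_off hx hx0, hswap]
  · exact ((NN_rfam hE.bdata he hE.ad).hom () (mem_univ _)).zero
  · intro x hx hx0
    rw [hE.G_zero_off hx hx0, hswap]

end Vale.Agent.P268.T
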